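import Claimed.Agent.R291.Spec.Box

set_option autoImplicit false

namespace Claimed.Agent.R291

open MeasureTheory Filter Topology Set
open scoped ComplexConjugate ENNReal

/-! ## 1. the standard Cauchy law -/

section cauchy

/-- the standard Cauchy law -/
noncomputable def gspCau : Measure ℝ := volume.withDensity fun t => ENNReal.ofReal (1 / (Real.pi * (1 + t ^ 2)))

theorem gspCau_dens_measurable : Measurable fun t : ℝ => ENNReal.ofReal (1 / (Real.pi * (1 + t ^ 2))) := by
  fun_prop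

theorem gspCau_dens_integrable : Integrable fun t : ℝ => 1 / (Real.pi * (1 + t ^ 2)) := by
  have := integrable_inv_one_add_sq.const_mul (Real.pi)⁻¹
  refine this.congr (Eventually.of_forall fun t => ?_)
  show Real.pi⁻¹ * (1 + t ^ 2)⁻¹ = 1 / (Real.pi * (1 + t ^ 2))
  rw [one_div, mul_inv]

theorem gspCau_dens_nonneg (t : ℝ) : 0 ≤ 1 / (Real.pi * (1 + t ^ 2)) := by
  have := Real.pi_pos
  positivity

instance gspCau_prob : IsProbabilityMeasure gspCau := by
  constructor
  rw [gspCau, withDensity_apply _ MeasurableSet.univ, Measure.restrict_univ,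
    ← ofReal_integral_eq_lintegral_ofReal gspCau_dens_integrable (Eventually.of_forall gspCau_dens_nonneg)]
  have : ∫ t : ℝ, 1 / (Real.pi * (1 + t ^ 2)) = 1 := by
    have h1 : ∀ t : ℝ, 1 / (Real.pi * (1 + t ^ 2)) = Real.pi⁻¹ * (1 + t ^ 2)⁻¹ := fun t => by
      rw [one_div, mul_inv]
    simp_rw [h1]
    rw [integral_const_mul, integral_univ_inv_one_add_sq, inv_mul_cancel₀ Real.pi_ne_zero]
  rw [this, ENNReal.ofReal_one]

theorem gspCau_integral (g : ℝ → ℂ) : ∫ t, g t ∂gspCau = ∫ t, (1 / (Real.pi * (1 + t ^ 2))) • g t := by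
  rw [gspCau, integral_withDensity_eq_integral_toReal_smul gspCau_dens_measurable
    (Eventually.of_forall fun y => ENNReal.ofReal_lt_top)]
  refine integral_congr_ae (Eventually.of_forall fun t => ?_)
  show (ENNReal.ofReal (1 / (Real.pi * (1 + t ^ 2)))).toReal • g t = _
  rw [ENNReal.toReal_ofReal (gspCau_dens_nonneg t)]

end cauchy

/-! ## 2. the Poisson kernel of the disc, and its Cayley form -/

section poisson

/-- the Fourier coefficients of the Poisson kernel (from the Poisson formula for `z ^ j`) -/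
theorem gsp_pois_circle {l : ℝ} (h0 : 0 ≤ l) (h1 : l < 1) (j : ℕ) :
    (2 * Real.pi)⁻¹ • ∫ θ in (-Real.pi)..Real.pi,
      ((1 - l ^ 2) / (1 - 2 * l * Real.cos θ + l ^ 2)) • Complex.exp (Complex.I * (j * θ)) = (l : ℂ) ^ j := by
  have hf : DiffContOnCl ℂ (fun z : ℂ => z ^ j) (Metric.ball 0 1) :=
    (differentiable_id.pow j).diffContOnCl
  have hw : (l : ℂ) ∈ Metric.ball (0 : ℂ) 1 := by
    rw [mem_ball_zero_iff, Complex.norm_real, Real.norm_eq_abs, abs_of_nonneg h0]
    exact h1
  have h := hf.circleAverage_poissonKernel_smul' hw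
  rw [Real.circleAverage_eq_integral_add (-Real.pi)] at h
  rw [← h]
  congr 1
  have e : ∀ θ : ℝ, ((‖circleMap 0 1 θ - 0‖ ^ 2 - ‖(l : ℂ) - 0‖ ^ 2) / ‖circleMap 0 1 θ - 0 - ((l : ℂ) - 0)‖ ^ 2) •
      (circleMap 0 1 θ) ^ j = ((1 - l ^ 2) / (1 - 2 * l * Real.cos θ + l ^ 2)) • Complex.exp (Complex.I * (j * θ)) := by
    intro θ
    have e1 : circleMap 0 1 θ = Complex.exp (θ * Complex.I) := by simp [circleMap]
    have e2 : ‖circleMap 0 1 θ‖ = 1 := by rw [e1, Complex.norm_exp_ofReal_mul_I]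
    have e3 : ‖circleMap 0 1 θ - (l : ℂ)‖ ^ 2 = 1 - 2 * l * Real.cos θ + l ^ 2 := by
      rw [e1, Complex.exp_mul_I, ← Complex.ofReal_cos, ← Complex.ofReal_sin, Complex.sq_norm, Complex.normSq_apply]
      simp only [Complex.sub_re, Complex.add_re, Complex.ofReal_re, Complex.mul_re, Complex.I_re, mul_zero,
        Complex.ofReal_im, Complex.I_im, mul_one, sub_self, add_zero, Complex.sub_im, Complex.add_im, Complex.mul_im,
        zero_add, sub_zero]
      nlinarith [Real.sin_sq_add_cos_sq θ]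
    have e4 : (circleMap 0 1 θ) ^ j = Complex.exp (Complex.I * (j * θ)) := by
      rw [e1, ← Complex.exp_nat_mul]
      congr 1
      ring
    rw [sub_zero, sub_zero, e2, e3, e4, Complex.norm_real, Real.norm_eq_abs, sq_abs, one_pow]
  simp_rw [e]
  have := intervalIntegral.integral_comp_add_right (a := 0) (b := 2 * Real.pi)
    (fun θ : ℝ => ((1 - l ^ 2) / (1 - 2 * l * Real.cos θ + l ^ 2)) • Complex.exp (Complex.I * (j * θ))) (-Real.pi)
  rw [this]
  congr 1 <;> ring

/-- the Cayley parameter `τ = (1 - λ) / (1 + λ)` -/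
noncomputable def gspTau (l : ℝ) : ℝ := (1 - l) / (1 + l)

/-- the angle `2 arctan (τ t)` -/
noncomputable def gspAng (l t : ℝ) : ℝ := 2 * Real.arctan (gspTau l * t)

theorem gspAng_mem (l t : ℝ) : gspAng l t ∈ Ioo (-Real.pi) Real.pi := by
  have := Real.arctan_mem_Ioo (gspTau l * t)
  constructor
  · unfold gspAng; linarith [this.1]
  · unfold gspAng; linarith [this.2]

theorem gspAng_measurable : Measurable fun q : ℝ × ℝ => gspAng q.1 q.2 := by
  unfold gspAng gspTau
  exact (Real.measurable_arctan.comp ((((measurable_const.sub measurable_fst).div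
    (measurable_const.add measurable_fst))).mul measurable_snd)).const_mul 2

theorem gspAng_one (t : ℝ) : gspAng 1 t = 0 := by simp [gspAng, gspTau]

/-- the Jacobian identity: Poisson kernel times `dθ / 2π` is the Cauchy density -/
theorem gsp_pois_jac {l : ℝ} (h0 : 0 ≤ l) (h1 : l < 1) (t : ℝ) :
    |2 * (gspTau l / (1 + (gspTau l * t) ^ 2))| * ((2 * Real.pi)⁻¹ *
      ((1 - l ^ 2) / (1 - 2 * l * Real.cos (gspAng l t) + l ^ 2))) = 1 / (Real.pi * (1 + t ^ 2)) := by
  have hpi := Real.pi_pos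
  have hτ : 0 < gspTau l := div_pos (by linarith) (by linarith)
  set u := gspTau l * t with hu
  have hu1 : u * (1 + l) = (1 - l) * t := by
    rw [hu, gspTau]
    field_simp
  have hu2 : u ^ 2 * (1 + l) ^ 2 = (1 - l) ^ 2 * t ^ 2 := by
    rw [← mul_pow, hu1, mul_pow]
  have hc : Real.cos (gspAng l t) = 2 / (1 + u ^ 2) - 1 := by
    rw [gspAng, Real.cos_two_mul, Real.cos_sq_arctan]
    ring
  have hup : 0 < 1 + u ^ 2 := by positivity
  have htp : 0 < 1 + t ^ 2 := by positivity
  have hl : 0 < 1 - l := by linarith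
  have hden : 1 - 2 * l * (2 / (1 + u ^ 2) - 1) + l ^ 2 = (1 - l) ^ 2 * (1 + t ^ 2) / (1 + u ^ 2) := by
    field_simp
    linear_combination hu2
  rw [hc, hden, abs_of_pos (by positivity)]
  have hτ' : gspTau l * (1 + l) = 1 - l := by
    rw [gspTau]; field_simp
  have h3 : (1 - l ^ 2) = gspTau l * (1 + l) * (1 + l) := by rw [hτ']; ring
  have h4 : (1 - l) ^ 2 = (gspTau l * (1 + l)) ^ 2 := by rw [hτ']
  rw [h3, h4]
  have h5 : (0 : ℝ) < 1 + l := by linarith
  field_simp

/-- **the Cayley form of the Poisson kernel**: the law of `2 arctan (τ t)`, `t` standard Cauchy, has Fourier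
coefficients `λ ^ j` -/
theorem gsp_pois_cayley_nat {l : ℝ} (h0 : 0 ≤ l) (h1 : l < 1) (j : ℕ) :
    ∫ t, Complex.exp (Complex.I * (j * gspAng l t)) ∂gspCau = (l : ℂ) ^ j := by
  have hτ : 0 < gspTau l := div_pos (by linarith) (by linarith)
  rw [gspCau_integral, ← gsp_pois_circle h0 h1 j, intervalIntegral.integral_of_le (by linarith [Real.pi_pos]),
    integral_Ioc_eq_integral_Ioo]
  have himg : (fun t => gspAng l t) '' univ = Ioo (-Real.pi) Real.pi := by
    ext θ
    constructor
    · rintro ⟨t, -, rfl⟩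
      exact gspAng_mem l t
    · intro hθ
      refine ⟨Real.tan (θ / 2) / gspTau l, mem_univ _, ?_⟩
      show 2 * Real.arctan (gspTau l * (Real.tan (θ / 2) / gspTau l)) = θ
      rw [mul_div_cancel₀ _ hτ.ne', Real.arctan_tan (by linarith [hθ.1]) (by linarith [hθ.2])]
      ring
  have hder : ∀ t ∈ (univ : Set ℝ), HasDerivWithinAt (fun t => gspAng l t)
      (2 * (gspTau l / (1 + (gspTau l * t) ^ 2))) univ t := by
    intro t _
    have h2 : HasDerivAt (fun t : ℝ => gspTau l * t) (gspTau l) t := by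
      simpa using (hasDerivAt_id t).const_mul (gspTau l)
    have h3 := (h2.arctan).const_mul 2
    refine (h3.congr_deriv ?_).hasDerivWithinAt
    ring
  have hinj : InjOn (fun t => gspAng l t) univ := by
    intro a _ b _ hab
    have h2 : Real.arctan (gspTau l * a) = Real.arctan (gspTau l * b) := by
      have : 2 * Real.arctan (gspTau l * a) = 2 * Real.arctan (gspTau l * b) := hab
      linarith
    exact mul_left_cancel₀ hτ.ne' (Real.arctan_injective h2)
  rw [← himg, integral_image_eq_integral_abs_deriv_smul MeasurableSet.univ hder hinj, Measure.restrict_univ,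
    ← integral_smul]
  refine integral_congr_ae (Eventually.of_forall fun t => ?_)
  show (1 / (Real.pi * (1 + t ^ 2))) • Complex.exp (Complex.I * (j * gspAng l t))
    = (2 * Real.pi)⁻¹ • (|2 * (gspTau l / (1 + (gspTau l * t) ^ 2))| •
    (((1 - l ^ 2) / (1 - 2 * l * Real.cos (gspAng l t) + l ^ 2)) • Complex.exp (Complex.I * (j * gspAng l t))))
  rw [← gsp_pois_jac h0 h1 t, smul_smul, smul_smul]
  congr 1
  ring

/-- all Fourier coefficients, `λ ∈ [0,1]` (at `λ = 1` the law is the Dirac mass at `0`) -/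
theorem gsp_pois_cayley {l : ℝ} (hl : l ∈ Icc (0 : ℝ) 1) (j : ℤ) :
    ∫ t, Complex.exp (Complex.I * (j * gspAng l t)) ∂gspCau = (l : ℂ) ^ j.natAbs := by
  have hnat : ∀ k : ℕ, ∫ t, Complex.exp (Complex.I * (k * gspAng l t)) ∂gspCau = (l : ℂ) ^ k := by
    intro k
    rcases hl.2.eq_or_lt with rfl | h1
    · simp [gspAng_one]
    · exact gsp_pois_cayley_nat hl.1 h1 k
  rcases Int.natAbs_eq j with hj | hj
  · have := hnat j.natAbs
    rw [← this]
    conv_lhs => rw [hj]
    simp
  · have := congrArg conj (hnat j.natAbs)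
    rw [← integral_conj, map_pow, Complex.conj_ofReal] at this
    rw [← this]
    refine integral_congr_ae (Eventually.of_forall fun t => ?_)
    show Complex.exp (Complex.I * (j * gspAng l t)) = conj (Complex.exp (Complex.I * ((j.natAbs : ℕ) * gspAng l t)))
    have hjc : (j : ℂ) = -((j.natAbs : ℕ) : ℂ) := by
      have := congrArg (Int.cast : ℤ → ℂ) hj
      rwa [Int.cast_neg, Int.cast_natCast] at this
    rw [← Complex.exp_conj, hjc]
    congr 1
    simp only [map_mul, Complex.conj_I, Complex.conj_ofReal, map_natCast]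
    ring

end poisson

/-! ## 3. the mixture theorem -/

section mixture

/-- the mixing map `(q, t) ↦ (q.1, 2 arctan (τ(q.2) t))` -/
noncomputable def gspMixMap (x : (ℝ × ℝ) × ℝ) : ℝ × ℝ := (x.1.1, gspAng x.1.2 x.2)

theorem gspMixMap_measurable : Measurable gspMixMap := by
  have h1 : Measurable fun x : (ℝ × ℝ) × ℝ => x.1.1 := measurable_fst.comp measurable_fst
  have h2 : Measurable fun x : (ℝ × ℝ) × ℝ => (x.1.2, x.2) := (measurable_snd.comp measurable_fst).prodMk measurable_snd
  have h3 := Measurable.comp (g := fun q : ℝ × ℝ => gspAng q.1 q.2) (f := fun x : (ℝ × ℝ) × ℝ => (x.1.2, x.2))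
    gspAng_measurable h2
  exact Measurable.prodMk h1 h3

/-- **Poisson / Cauchy mixture, box + Cayley form.**  If the Fourier coefficients of `μ` (on `(-π,π]²`) are
`∫ e^{i m k} λ^{|j|} dγ(k, λ)`, then `μ` is the mixture over `γ` of the laws of `(k, 2 arctan (τ(λ) t))`, `t` standard Cauchy. -/
theorem gsp_pois_box {γ μ : Measure (ℝ × ℝ)} [IsFiniteMeasure γ] [IsFiniteMeasure μ]
    (hγ : γ (Ioc (-Real.pi) Real.pi ×ˢ Icc (0 : ℝ) 1)ᶜ = 0)
    (hμ : μ (Ioc (-Real.pi) Real.pi ×ˢ Ioc (-Real.pi) Real.pi)ᶜ = 0)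
    (h : ∀ m j : ℤ, ∫ p, Complex.exp (Complex.I * (m * p.1 + j * p.2)) ∂μ
      = ∫ q, Complex.exp (Complex.I * (m * q.1)) * (q.2 : ℂ) ^ j.natAbs ∂γ)
    (G : ℝ × ℝ → ℝ≥0∞) (hG : Measurable G) :
    ∫⁻ p, G p ∂μ = ∫⁻ q, ∫⁻ t, G (q.1, 2 * Real.arctan ((1 - q.2) / (1 + q.2) * t)) ∂gspCau ∂γ := by
  have hΦ := gspMixMap_measurable
  set μ' : Measure (ℝ × ℝ) := (γ.prod gspCau).map gspMixMap with hμ'
  have hfin : IsFiniteMeasure μ' := Measure.isFiniteMeasure_map _ _
  have hcar : μ' (Ioc (-Real.pi) Real.pi ×ˢ Ioc (-Real.pi) Real.pi)ᶜ = 0 := by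
    rw [hμ', Measure.map_apply hΦ (measurableSet_Ioc.prod measurableSet_Ioc).compl]
    refine measure_mono_null (t := (Ioc (-Real.pi) Real.pi ×ˢ Icc (0 : ℝ) 1)ᶜ ×ˢ univ) ?_ ?_
    · intro x hx
      refine ⟨fun hx1 => hx ?_, mem_univ _⟩
      exact ⟨hx1.1, Ioo_subset_Ioc_self (gspAng_mem _ _)⟩
    · rw [Measure.prod_prod, hγ, zero_mul]
  have hae : ∀ᵐ q ∂γ, q ∈ Ioc (-Real.pi) Real.pi ×ˢ Icc (0 : ℝ) 1 := mem_ae_iff.2 hγ
  have hmom : ∀ m j : ℤ, ∫ p, Complex.exp (Complex.I * (m * p.1 + j * p.2)) ∂μ'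
      = ∫ q, Complex.exp (Complex.I * (m * q.1)) * (q.2 : ℂ) ^ j.natAbs ∂γ := by
    intro m j
    rw [hμ', integral_map hΦ.aemeasurable (gsp_exp2_continuous m j).aestronglyMeasurable, integral_prod]
    · refine integral_congr_ae (hae.mono fun q hq => ?_)
      show ∫ t, Complex.exp (Complex.I * (m * q.1 + j * gspAng q.2 t)) ∂gspCau
        = Complex.exp (Complex.I * (m * q.1)) * (q.2 : ℂ) ^ j.natAbs
      rw [← gsp_pois_cayley hq.2 j, ← integral_const_mul]
      refine integral_congr_ae (Eventually.of_forall fun t => ?_)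
      show Complex.exp (Complex.I * (m * q.1 + j * gspAng q.2 t)) = _ * _
      rw [← Complex.exp_add]
      congr 1
      ring
    · refine (integrable_const (1 : ℝ)).mono' ((gsp_exp2_continuous m j).measurable.comp hΦ).aestronglyMeasurable
        (Eventually.of_forall fun x => ?_)
      exact (gspE2_norm (m, j) (gspMixMap x)).le
  have heq : μ = μ' := gsp_box2_unique hμ hcar fun m j => by rw [h, hmom]
  rw [heq, hμ', lintegral_map hG hΦ, lintegral_prod (fun x => G (gspMixMap x)) (hG.comp hΦ).aemeasurable]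
  rfl

end mixture

end Claimed.Agent.R291
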