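import Mathlib

set_option autoImplicit false

namespace Claimed.Agent.R291

open MeasureTheory Filter Topology Set WeakDual
open scoped InnerProductSpace CompactlySupported

/-! ## 1. positive functionals on `C(X, ℂ)` -/

section rmk

variable {X : Type*} [TopologicalSpace X]

/-- a real continuous function, seen as a complex one -/
noncomputable def gspC (f : C(X, ℝ)) : C(X, ℂ) := ⟨fun x => (f x : ℂ), Complex.continuous_ofReal.comp f.continuous⟩

@[simp] theorem gspC_apply (f : C(X, ℝ)) (x : X) : gspC f x = (f x : ℂ) := rfl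

theorem gspC_add (f g : C(X, ℝ)) : gspC (f + g) = gspC f + gspC g := by
  ext x; simp

theorem gspC_smul (c : ℝ) (f : C(X, ℝ)) : gspC (c • f) = (c : ℂ) • gspC f := by
  ext x; simp

/-- a nonnegative function is a square -/
theorem gspC_eq_sq {f : C(X, ℝ)} (hf : ∀ x, 0 ≤ f x) :
    ∃ g : C(X, ℂ), gspC f = star g * g := by
  refine ⟨gspC ⟨fun x => Real.sqrt (f x), Real.continuous_sqrt.comp f.continuous⟩, ?_⟩
  ext x
  simp only [gspC_apply, ContinuousMap.mul_apply, ContinuousMap.star_apply, ContinuousMap.coe_mk,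
    Complex.star_def, Complex.conj_ofReal]
  rw [← Complex.ofReal_mul, Real.mul_self_sqrt (hf x)]

variable [CompactSpace X] [T2Space X] [MeasurableSpace X] [BorelSpace X]

/-- **Riesz-Markov-Kakutani, complex form**: a linear functional on `C(X, ℂ)` which is nonnegative on the squares
`star g * g` is the integral against a finite regular measure. -/
theorem gsp_rmk (L : C(X, ℂ) →ₗ[ℂ] ℂ) (hL : ∀ g : C(X, ℂ), ∃ r : ℝ, 0 ≤ r ∧ L (star g * g) = r) :
    ∃ μ : Measure X, IsFiniteMeasure μ ∧ μ.Regular ∧ ∀ g : C(X, ℂ), L g = ∫ x, g x ∂μ := by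
  have hpos : ∀ f : C(X, ℝ), (∀ x, 0 ≤ f x) → ∃ r : ℝ, 0 ≤ r ∧ L (gspC f) = r := by
    intro f hf
    obtain ⟨g, hg⟩ := gspC_eq_sq hf
    rw [hg]
    exact hL g
  -- `L` is real on real functions
  have hreal : ∀ f : C(X, ℝ), (L (gspC f)).im = 0 := by
    intro f
    set c : C(X, ℝ) := ContinuousMap.const X ‖f‖ with hc
    obtain ⟨r1, -, h1⟩ := hpos (f + c) (fun x => by
      have := (abs_le.1 (f.norm_coe_le_norm x)).1
      simp only [ContinuousMap.add_apply, hc, ContinuousMap.const_apply]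
      linarith)
    obtain ⟨r2, -, h2⟩ := hpos c (fun x => by simp [hc])
    rw [gspC_add, map_add, h2] at h1
    have : L (gspC f) = ((r1 - r2 : ℝ) : ℂ) := by
      push_cast
      rw [← h1]; ring
    rw [this, Complex.ofReal_im]
  let Λ0 : C_c(X, ℝ) →ₗ[ℝ] ℝ :=
    { toFun := fun f => (L (gspC f.toContinuousMap)).re
      map_add' := fun f g => by
        have : (f + g).toContinuousMap = f.toContinuousMap + g.toContinuousMap := rfl
        rw [this, gspC_add, map_add, Complex.add_re]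
      map_smul' := fun c f => by
        have : (c • f).toContinuousMap = c • f.toContinuousMap := rfl
        rw [this, gspC_smul, map_smul]
        simp }
  let Λ : C_c(X, ℝ) →ₚ[ℝ] ℝ := PositiveLinearMap.mk₀ Λ0 (fun f hf => by
    obtain ⟨r, hr, h⟩ := hpos f.toContinuousMap (fun x => hf x)
    show 0 ≤ (L (gspC f.toContinuousMap)).re
    rw [h, Complex.ofReal_re]
    exact hr)
  refine ⟨RealRMK.rieszMeasure Λ, inferInstance, inferInstance, fun g => ?_⟩
  set μ := RealRMK.rieszMeasure Λ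
  have hR : ∀ f : C(X, ℝ), L (gspC f) = ((∫ x, f x ∂μ : ℝ) : ℂ) := by
    intro f
    let f' : C_c(X, ℝ) := ⟨f, HasCompactSupport.of_compactSpace _⟩
    have h1 : ∫ x, f' x ∂μ = Λ f' := RealRMK.integral_rieszMeasure Λ f'
    have h2 : Λ f' = (L (gspC f)).re := rfl
    have h3 : ∫ x, f x ∂μ = (L (gspC f)).re := by rw [← h2, ← h1]; rfl
    rw [h3]
    exact Complex.ext (by simp) (by simp [hreal f])
  -- real and imaginary parts
  let u : C(X, ℝ) := ⟨fun x => (g x).re, Complex.continuous_re.comp g.continuous⟩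
  let v : C(X, ℝ) := ⟨fun x => (g x).im, Complex.continuous_im.comp g.continuous⟩
  have hg : g = gspC u + Complex.I • gspC v := by
    ext x
    simp only [ContinuousMap.add_apply, ContinuousMap.smul_apply, gspC_apply, smul_eq_mul]
    show g x = ((g x).re : ℂ) + Complex.I * ((g x).im : ℂ)
    rw [mul_comm]
    exact (Complex.re_add_im (g x)).symm
  have hint : ∀ f : C(X, ℂ), Integrable (fun x => f x) μ := fun f =>
    f.continuous.integrable_of_hasCompactSupport (HasCompactSupport.of_compactSpace _)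
  have hI : ∫ x, g x ∂μ = ((∫ x, u x ∂μ : ℝ) : ℂ) + Complex.I * ((∫ x, v x ∂μ : ℝ) : ℂ) := by
    have e : (fun x => g x) = fun x => gspC u x + Complex.I * gspC v x := by
      funext x
      conv_lhs => rw [hg]
      simp
    rw [e, integral_add (hint _) ((hint _).const_mul _), integral_const_mul]
    simp only [gspC_apply]
    rw [integral_complex_ofReal, integral_complex_ofReal]
  rw [hI]
  conv_lhs => rw [hg]
  rw [map_add, map_smul, hR u, hR v, smul_eq_mul]

end rmk

/-! ## 2. scalar measures of a continuous calculus `Ψ : C(Y, ℂ) →⋆ₐ B(H)` -/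

section calculus

variable {H : Type*} [NormedAddCommGroup H] [InnerProductSpace ℂ H] [CompleteSpace H]
variable {Y : Type*} [TopologicalSpace Y]

theorem gsp_calc_sq (Ψ : C(Y, ℂ) →⋆ₐ[ℂ] (H →L[ℂ] H)) (a : H) (g : C(Y, ℂ)) :
    ⟪a, Ψ (star g * g) a⟫_ℂ = ((‖Ψ g a‖ ^ 2 : ℝ) : ℂ) := by
  rw [map_mul, map_star, ContinuousLinearMap.star_eq_adjoint, ContinuousLinearMap.mul_def,
    ContinuousLinearMap.comp_apply, ContinuousLinearMap.adjoint_inner_right, inner_self_eq_norm_sq_to_K]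
  norm_cast

variable [CompactSpace Y]

theorem gsp_calc_norm_le (Ψ : C(Y, ℂ) →⋆ₐ[ℂ] (H →L[ℂ] H)) (g : C(Y, ℂ)) : ‖Ψ g‖ ≤ ‖g‖ :=
  NonUnitalStarAlgHom.norm_apply_le (Ψ : C(Y, ℂ) →⋆ₙₐ[ℂ] (H →L[ℂ] H)) g

/-- matrix elements are bounded (this replaces the total variation bound of the cross measures) -/
theorem gsp_calc_inner_le (Ψ : C(Y, ℂ) →⋆ₐ[ℂ] (H →L[ℂ] H)) (a b : H) (g : C(Y, ℂ)) :
    ‖⟪a, Ψ g b⟫_ℂ‖ ≤ ‖g‖ * (‖a‖ * ‖b‖) := by
  calc ‖⟪a, Ψ g b⟫_ℂ‖ ≤ ‖a‖ * ‖Ψ g b‖ := norm_inner_le_norm _ _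
    _ ≤ ‖a‖ * (‖g‖ * ‖b‖) := by
        gcongr
        exact ((Ψ g).le_opNorm b).trans (mul_le_mul_of_nonneg_right (gsp_calc_norm_le Ψ g) (norm_nonneg b))
    _ = ‖g‖ * (‖a‖ * ‖b‖) := by ring

variable [T2Space Y] [MeasurableSpace Y] [BorelSpace Y]

/-- the diagonal scalar measure of a calculus -/
theorem gsp_calc_measure (Ψ : C(Y, ℂ) →⋆ₐ[ℂ] (H →L[ℂ] H)) (a : H) :
    ∃ μ : Measure Y, IsFiniteMeasure μ ∧ μ.Regular ∧ ∀ g : C(Y, ℂ), ⟪a, Ψ g a⟫_ℂ = ∫ y, g y ∂μ := by
  let L : C(Y, ℂ) →ₗ[ℂ] ℂ :=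
    { toFun := fun g => ⟪a, Ψ g a⟫_ℂ
      map_add' := fun f g => by rw [map_add, add_apply, inner_add_right]
      map_smul' := fun c g => by
        rw [map_smul, smul_apply, inner_smul_right]; rfl }
  exact gsp_rmk L fun g => ⟨‖Ψ g a‖ ^ 2, by positivity, gsp_calc_sq Ψ a g⟩

end calculus

/-! ## 3. the joint continuous calculus of a commuting family of normal operators -/

section joint

variable {H : Type*} [NormedAddCommGroup H] [InnerProductSpace ℂ H] [CompleteSpace H]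

/-- the closed star subalgebra generated by a set of operators -/
noncomputable def gspAlg (s : Set (H →L[ℂ] H)) : StarSubalgebra ℂ (H →L[ℂ] H) :=
  (StarAlgebra.adjoin ℂ s).topologicalClosure

theorem gspAlg_isClosed (s : Set (H →L[ℂ] H)) : IsClosed (gspAlg s : Set (H →L[ℂ] H)) :=
  StarSubalgebra.isClosed_topologicalClosure _

theorem gspAlg_mem {s : Set (H →L[ℂ] H)} {x : H →L[ℂ] H} (hx : x ∈ s) : x ∈ gspAlg s :=
  StarSubalgebra.le_topologicalClosure _ (StarAlgebra.subset_adjoin ℂ s hx)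

theorem gspAlg_comm {s : Set (H →L[ℂ] H)} (hc : ∀ a ∈ s, ∀ b ∈ s, a * b = b * a)
    (hcs : ∀ a ∈ s, ∀ b ∈ s, a * star b = star b * a) (x y : gspAlg s) : x * y = y * x := by
  have h := StarAlgebra.isMulCommutative_adjoin ℂ hc hcs
  exact (StarSubalgebra.commRingTopologicalClosure (StarAlgebra.adjoin ℂ s)
    (fun x y => h.is_comm.comm x y)).mul_comm x y

/-- the commutative C*-algebra structure -/
@[reducible] noncomputable def gspAlgInst {s : Set (H →L[ℂ] H)} (hc : ∀ a ∈ s, ∀ b ∈ s, a * b = b * a)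
    (hcs : ∀ a ∈ s, ∀ b ∈ s, a * star b = star b * a) : CommCStarAlgebra (gspAlg s) :=
  haveI := gspAlg_isClosed s
  { (StarSubalgebra.cstarAlgebra (gspAlg s)) with mul_comm := gspAlg_comm hc hcs }

/-- a unitary representation of `ℤ^ι` -/
structure GspRep {ι : Type*} (T : (ι → ℤ) → H →L[ℂ] H) : Prop where
  zero : T 0 = 1
  add : ∀ m n, T (m + n) = T m * T n
  star : ∀ n, star (T n) = T (-n)

theorem GspRep.comm {ι : Type*} {T : (ι → ℤ) → H →L[ℂ] H} (hT : GspRep T) (m n : ι → ℤ) : T m * T n = T n * T m := by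
  rw [← hT.add, ← hT.add, add_comm]

/-- the spectrum of a positive contraction -/
theorem gsp_spec_mem {S : H →L[ℂ] H} (hS : S.IsPositive) (hS1 : ‖S‖ ≤ 1) {z : ℂ} (hz : z ∈ spectrum ℂ S) :
    z = (z.re : ℂ) ∧ 0 ≤ z.re ∧ z.re ≤ 1 := by
  have h1 : z = (z.re : ℂ) := hS.isSelfAdjoint.mem_spectrum_eq_re hz
  have h2 : z.re ∈ spectrum ℝ S := by
    rw [← spectrum.algebraMap_mem_iff ℂ]
    rw [h1] at hz
    exact hz
  have h3 : 0 ≤ z.re := spectrum_nonneg_of_nonneg ((ContinuousLinearMap.nonneg_iff_isPositive S).2 hS) h2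
  have h4 : ‖z‖ ≤ 1 := by
    have h5 : ‖(1 : H →L[ℂ] H)‖ ≤ 1 := ContinuousLinearMap.norm_id_le
    calc ‖z‖ ≤ ‖S‖ * ‖(1 : H →L[ℂ] H)‖ := spectrum.norm_le_norm_mul_of_mem hz
      _ ≤ 1 * 1 := by gcongr
      _ = 1 := by ring
  exact ⟨h1, h3, (Complex.re_le_norm z).trans h4⟩

/-- a complex number of modulus one as a point of the circle -/
def gspCirc (z : ℂ) (h : ‖z‖ = 1) : Circle := ⟨z, by simp [Submonoid.unitSphere, h]⟩

/-- the coordinate `λ` on `torus × [0,1]` -/
noncomputable def gspLam (ι : Type*) : C(UnitAddTorus ι × unitInterval, ℂ) :=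
  ⟨fun p => ((p.2 : ℝ) : ℂ), by fun_prop⟩

/-- the character `e^{2π i n·θ}` on `torus × [0,1]` -/
noncomputable def gspChi {ι : Type*} [Fintype ι] (n : ι → ℤ) : C(UnitAddTorus ι × unitInterval, ℂ) :=
  (UnitAddTorus.mFourier n).comp ContinuousMap.fst

/-- multiplicative functions on `ℤ^ι` are determined by their values at the basis vectors -/
theorem gsp_hom_eq {ι : Type*} [Fintype ι] [DecidableEq ι] {f : (ι → ℤ) → ℂ} (h0 : f 0 = 1)
    (hadd : ∀ m n, f (m + n) = f m * f n) (n : ι → ℤ) : f n = ∏ r, f (Pi.single r 1) ^ (n r) := by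
  have hne : ∀ m, f m ≠ 0 := fun m hm => by
    have := hadd m (-m)
    rw [add_neg_cancel, h0, hm, zero_mul] at this
    exact one_ne_zero this
  let F : (ι → ℤ) →+ Additive ℂˣ :=
    { toFun := fun m => Additive.ofMul (Units.mk0 (f m) (hne m))
      map_zero' := by
        apply Additive.toMul.injective
        ext
        simp [h0]
      map_add' := fun m n => by
        apply Additive.toMul.injective
        ext
        simp [hadd] }
  have hn : n = ∑ r, (n r) • (Pi.single r (1 : ℤ) : ι → ℤ) := by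
    funext i
    simp [Finset.sum_apply, Pi.single_apply]
  have hF : F n = ∑ r, (n r) • F (Pi.single r 1) := by
    conv_lhs => rw [hn]
    rw [map_sum]
    exact Finset.sum_congr rfl fun r _ => map_zsmul F _ _
  have h2 := congrArg (fun u : Additive ℂˣ => ((Additive.toMul u : ℂˣ) : ℂ)) hF
  simpa [F, toMul_sum, toMul_zsmul, Units.coe_prod] using h2

/-- **the joint continuous calculus** of a unitary representation of `ℤ^ι` and a commuting positive contraction
(Gelfand duality for the commutative C*-algebra which they generate) -/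
theorem gsp_joint {ι : Type*} [Fintype ι] {T : (ι → ℤ) → H →L[ℂ] H} (hT : GspRep T) {S : H →L[ℂ] H}
    (hS : S.IsPositive) (hS1 : ‖S‖ ≤ 1) (hTS : ∀ n, T n * S = S * T n) :
    ∃ Ψ : C(UnitAddTorus ι × unitInterval, ℂ) →⋆ₐ[ℂ] (H →L[ℂ] H), (∀ n, Ψ (gspChi n) = T n) ∧ Ψ (gspLam ι) = S := by
  classical
  set s : Set (H →L[ℂ] H) := Set.range T ∪ {S} with hs
  have hSs : star S = S := hS.isSelfAdjoint.star_eq
  have hc : ∀ a ∈ s, ∀ b ∈ s, a * b = b * a := by
    rintro a (⟨m, rfl⟩ | rfl) b (⟨n, rfl⟩ | rfl)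
    · exact hT.comm m n
    · exact hTS m
    · exact (hTS n).symm
    · rfl
  have hcs : ∀ a ∈ s, ∀ b ∈ s, a * star b = star b * a := by
    rintro a (⟨m, rfl⟩ | rfl) b (⟨n, rfl⟩ | rfl)
    · rw [hT.star]; exact hT.comm m (-n)
    · rw [hSs]; exact hTS m
    · rw [hT.star]; exact (hTS (-n)).symm
    · rw [hSs]
  let _ : CommCStarAlgebra (gspAlg s) := gspAlgInst hc hcs
  let tA : (ι → ℤ) → gspAlg s := fun n => ⟨T n, gspAlg_mem (Or.inl ⟨n, rfl⟩)⟩
  let sA : gspAlg s := ⟨S, gspAlg_mem (Or.inr rfl)⟩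
  have t0 : tA 0 = 1 := Subtype.ext hT.zero
  have tadd : ∀ m n, tA (m + n) = tA m * tA n := fun m n => Subtype.ext (hT.add m n)
  have tstar : ∀ n, star (tA n) = tA (-n) := fun n => Subtype.ext (hT.star n)
  -- values of the characters
  have c0 : ∀ χ : characterSpace ℂ (gspAlg s), χ (tA 0) = 1 := fun χ => by rw [t0, map_one]
  have cadd : ∀ (χ : characterSpace ℂ (gspAlg s)) (m n), χ (tA (m + n)) = χ (tA m) * χ (tA n) := fun χ m n => by
    rw [tadd, map_mul]
  have cnorm : ∀ (χ : characterSpace ℂ (gspAlg s)) (n), ‖χ (tA n)‖ = 1 := by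
    intro χ n
    have h1 : χ (tA (-n)) = star (χ (tA n)) := by rw [← tstar, map_star]
    have h2 : χ (tA n) * star (χ (tA n)) = 1 := by
      rw [← h1, ← cadd, add_neg_cancel, c0]
    have h3 : ‖χ (tA n)‖ * ‖χ (tA n)‖ = 1 := by
      have := congrArg norm h2
      rwa [norm_mul, norm_star, norm_one] at this
    nlinarith [norm_nonneg (χ (tA n))]
  have cS : ∀ χ : characterSpace ℂ (gspAlg s), χ sA = ((χ sA).re : ℂ) ∧ 0 ≤ (χ sA).re ∧ (χ sA).re ≤ 1 := by
    intro χ
    have h1 : χ sA ∈ spectrum ℂ sA := WeakDual.CharacterSpace.apply_mem_spectrum χ sA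
    have := gspAlg_isClosed s
    rw [(gspAlg s).mem_spectrum_iff] at h1
    exact gsp_spec_mem hS hS1 h1
  -- the map to the model space
  let e := AddCircle.homeomorphCircle (T := (1 : ℝ)) one_ne_zero
  let Φ : characterSpace ℂ (gspAlg s) → UnitAddTorus ι × unitInterval := fun χ =>
    (fun r => e.symm (gspCirc (χ (tA (Pi.single r 1))) (cnorm χ _)), ⟨(χ sA).re, (cS χ).2⟩)
  have hev : ∀ x : gspAlg s, Continuous fun χ : characterSpace ℂ (gspAlg s) => χ x := fun x =>
    (WeakDual.eval_continuous x).comp continuous_subtype_val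
  have hΦ : Continuous Φ := by
    refine Continuous.prodMk (continuous_pi fun r => e.symm.continuous.comp ?_) ?_
    · exact Continuous.subtype_mk (hev _) _
    · exact Continuous.subtype_mk (Complex.continuous_re.comp (hev sA)) _
  let Ψ : C(UnitAddTorus ι × unitInterval, ℂ) →⋆ₐ[ℂ] (H →L[ℂ] H) :=
    ((gspAlg s).subtype.comp ((gelfandStarTransform (gspAlg s)).symm : C(characterSpace ℂ (gspAlg s), ℂ) →⋆ₐ[ℂ] gspAlg s)).comp
      (ContinuousMap.compStarAlgHom' ℂ ℂ ⟨Φ, hΦ⟩)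
  have hΨ : ∀ (g : C(UnitAddTorus ι × unitInterval, ℂ)) (x : gspAlg s), (∀ χ, g (Φ χ) = χ x) → Ψ g = x := by
    intro g x h
    have h1 : (ContinuousMap.compStarAlgHom' ℂ ℂ ⟨Φ, hΦ⟩ g : C(characterSpace ℂ (gspAlg s), ℂ))
        = gelfandStarTransform (gspAlg s) x := by
      ext χ
      exact h χ
    show (((gelfandStarTransform (gspAlg s)).symm (ContinuousMap.compStarAlgHom' ℂ ℂ ⟨Φ, hΦ⟩ g) : gspAlg s)
      : H →L[ℂ] H) = x
    rw [h1, StarAlgEquiv.symm_apply_apply]
  refine ⟨Ψ, fun n => hΨ (gspChi n) (tA n) fun χ => ?_, hΨ (gspLam ι) sA fun χ => ?_⟩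
  · rw [gsp_hom_eq (f := fun m => χ (tA m)) (c0 χ) (cadd χ) n]
    show ∏ r, fourier (n r) ((Φ χ).1 r) = _
    refine Finset.prod_congr rfl fun r _ => ?_
    rw [fourier_apply, AddCircle.toCircle_zsmul, Circle.coe_zpow]
    congr 1
    show ((AddCircle.toCircle (e.symm _) : Circle) : ℂ) = _
    rw [← AddCircle.homeomorphCircle_apply one_ne_zero]
    show ((e (e.symm _) : Circle) : ℂ) = _
    rw [Homeomorph.apply_symm_apply]
    rfl
  · exact (cS χ).1.symm

end joint

end Claimed.Agent.R291
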