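import Mathlib
import Claimed.Agent.R291.Spec.Core

/-!
# R291 / SPC : spectral measures at the level of FORMS          OWNER: helper179 (unit head: helper92)

TEX[08-scalar-spectra: lem:spectra:unitary, lem:spectra:transfer], TEX[04-plane: normal transfer is a contraction]

No Hilbert space at the use site: the carrier is any complex vector space `E` with a positive semidefinite Hermitian
form `c : PreInnerProductSpace.Core ℂ E` (the `L²` form or the reflection form on finite arrays / local observables).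

* `sp8_contr`, `sp8_one_sub_pos`, `sp8_mul_one_sub_pos`, `sp8_pow_mul_pow_pos` (RP-abs): a `c`-symmetric, `c`-nonnegative
  operator with `c`-bounded orbits is a contraction and `0 ≤ c(x, T^k (1-T)^l x)`.
* `sp8_ips`  : joint scalar spectral measure on a (non complete, non separated) inner product space.
* `sp8_core` : the same for a form `c`.
* `sp8_bh`   : the same for a function `φ : (ι → ℤ) → ℕ → ℂ` (Bochner + Hausdorff), `E = Finsupp`.
The existence comes from `gsp_joint` + `gsp_calc_measure` (helper92, `Spec/Core.lean`) on the completion.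
-/

set_option autoImplicit false
set_option warn.classDefReducibility false

namespace Claimed.Agent.R291

open scoped ComplexConjugate InnerProductSpace
open Polynomial MeasureTheory UniformSpace

/-! ## 0. a log-convex bounded sequence does not increase at the first step -/

theorem sp8_logconvex {a : ℕ → ℝ} (h0 : ∀ n, 0 ≤ a n) (hc : ∀ n, a (n + 1) ^ 2 ≤ a n * a (n + 2)) {K : ℝ} (hK : ∀ n, a n ≤ K) :
    a 1 ≤ a 0 := by
  by_contra hlt
  push Not at hlt
  have ha1 : 0 < a 1 := lt_of_le_of_lt (h0 0) hlt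
  have ha0 : 0 < a 0 := by
    rcases (h0 0).lt_or_eq with h | h
    · exact h
    · have := hc 0
      rw [← h, zero_mul] at this
      nlinarith
  -- ratio
  have key : ∀ n, 0 < a n ∧ a 1 * a n ≤ a 0 * a (n + 1) := by
    intro n
    induction n with
    | zero => exact ⟨ha0, by rw [mul_comm]⟩
    | succ n ih =>
      obtain ⟨hn, hr⟩ := ih
      have hn1 : 0 < a (n + 1) := by
        by_contra h
        have h' : a (n + 1) = 0 := le_antisymm (not_lt.1 h) (h0 _)
        rw [h', mul_zero] at hr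
        nlinarith [mul_pos ha1 hn]
      refine ⟨hn1, ?_⟩
      have h2 := hc n
      -- a1 * a(n+1) * a n ≤ a0 * a(n+1)^2 ≤ a0 * a n * a(n+2)
      have h3 : a 1 * a (n + 1) * a n ≤ a 0 * a (n + 2) * a n := by
        calc a 1 * a (n + 1) * a n = (a 1 * a n) * a (n + 1) := by ring
          _ ≤ (a 0 * a (n + 1)) * a (n + 1) := mul_le_mul_of_nonneg_right hr hn1.le
          _ = a 0 * a (n + 1) ^ 2 := by ring
          _ ≤ a 0 * (a n * a (n + 2)) := mul_le_mul_of_nonneg_left h2 ha0.le
          _ = a 0 * a (n + 2) * a n := by ring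
      exact le_of_mul_le_mul_right h3 hn
  have grow : ∀ n, (a 1 / a 0) ^ n * a 0 ≤ a n := by
    intro n
    induction n with
    | zero => simp
    | succ n ih =>
      have h1 := (key n).2
      calc (a 1 / a 0) ^ (n + 1) * a 0 = (a 1 / a 0) * ((a 1 / a 0) ^ n * a 0) := by ring
        _ ≤ (a 1 / a 0) * a n := mul_le_mul_of_nonneg_left ih (div_nonneg ha1.le ha0.le)
        _ = a 1 * a n / a 0 := by ring
        _ ≤ a (n + 1) := by rw [div_le_iff₀ ha0]; linarith
  have hr1 : 1 < a 1 / a 0 := by rw [lt_div_iff₀ ha0]; linarith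
  obtain ⟨n, hn⟩ := pow_unbounded_of_one_lt (K / a 0) hr1
  have h4 := grow n
  have h5 := hK n
  rw [div_lt_iff₀ ha0] at hn
  linarith

/-! ## 1. positive semidefinite Hermitian forms with a symmetric operator -/

section form

variable {E : Type*} [AddCommGroup E] [Module ℂ E]

/-- `A` is symmetric for the form `c` -/
def Sp8Sym (c : PreInnerProductSpace.Core ℂ E) (A : Module.End ℂ E) : Prop := ∀ x y, c.inner (A x) y = c.inner x (A y)

/-- `A` is nonnegative for the form `c` -/
def Sp8Pos (c : PreInnerProductSpace.Core ℂ E) (A : Module.End ℂ E) : Prop := ∀ x, 0 ≤ (c.inner x (A x)).re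

/-- the orbits of `A` are bounded for the form `c` -/
def Sp8Bdd (c : PreInnerProductSpace.Core ℂ E) (A : Module.End ℂ E) : Prop :=
  ∀ x, ∃ K : ℝ, ∀ n : ℕ, (c.inner ((A ^ n) x) ((A ^ n) x)).re ≤ K

variable (c : PreInnerProductSpace.Core ℂ E)

theorem sp8_add_right (x y z : E) : c.inner x (y + z) = c.inner x y + c.inner x z := by
  rw [← c.conj_inner_symm, c.add_left, map_add, c.conj_inner_symm, c.conj_inner_symm]

theorem sp8_smul_right (x y : E) (r : ℂ) : c.inner x (r • y) = r * c.inner x y := by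
  rw [← c.conj_inner_symm, c.smul_left, map_mul, c.conj_inner_symm, Complex.conj_conj]

theorem sp8_zero_right (x : E) : c.inner x 0 = 0 := by
  have := sp8_smul_right c x 0 0
  simpa using this

theorem sp8_zero_left (x : E) : c.inner 0 x = 0 := by
  have := c.smul_left 0 x 0
  simpa using this

theorem sp8_neg_right (x y : E) : c.inner x (-y) = - c.inner x y := by
  have := sp8_smul_right c x y (-1)
  simpa using this

theorem sp8_sub_right (x y z : E) : c.inner x (y - z) = c.inner x y - c.inner x z := by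
  rw [sub_eq_add_neg, sp8_add_right, sp8_neg_right, sub_eq_add_neg]

theorem sp8_sum_right {ι : Type*} (s : Finset ι) (x : E) (f : ι → E) : c.inner x (∑ i ∈ s, f i) = ∑ i ∈ s, c.inner x (f i) := by
  classical
  induction s using Finset.induction_on with
  | empty => simp [sp8_zero_right]
  | insert a s ha ih => rw [Finset.sum_insert ha, Finset.sum_insert ha, sp8_add_right, ih]

theorem sp8_sum_left {ι : Type*} (s : Finset ι) (f : ι → E) (y : E) : c.inner (∑ i ∈ s, f i) y = ∑ i ∈ s, c.inner (f i) y := by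
  classical
  induction s using Finset.induction_on with
  | empty => simp [sp8_zero_left]
  | insert a s ha ih => rw [Finset.sum_insert ha, Finset.sum_insert ha, c.add_left, ih]

theorem sp8_self_im (x : E) : (c.inner x x).im = 0 := by
  have h := c.conj_inner_symm x x
  have := congrArg Complex.im h
  simp only [Complex.conj_im] at this
  linarith

theorem sp8_self_eq (x : E) : c.inner x x = ((c.inner x x).re : ℂ) := by
  apply Complex.ext
  · simp
  · simp [sp8_self_im]

/-- Cauchy-Schwarz -/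
theorem sp8_cs (x y : E) : ‖c.inner x y‖ ^ 2 ≤ (c.inner x x).re * (c.inner y y).re := by
  have h := @InnerProductSpace.Core.inner_mul_inner_self_le ℂ E _ _ _ c x y
  have h2 : ‖c.inner y x‖ = ‖c.inner x y‖ := by
    rw [← c.conj_inner_symm y x, RCLike.norm_conj]
  have h3 : ‖c.inner x y‖ * ‖c.inner y x‖ ≤ (c.inner x x).re * (c.inner y y).re := h
  rw [h2] at h3
  rw [sq]; exact h3

theorem sp8_re_le (x y : E) : (c.inner x y).re ^ 2 ≤ (c.inner x x).re * (c.inner y y).re := by
  refine le_trans ?_ (sp8_cs c x y)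
  have h1 := Complex.abs_re_le_norm (c.inner x y)
  rw [← sq_abs]
  exact pow_le_pow_left₀ (abs_nonneg _) h1 2

variable {c}

theorem Sp8Sym.one : Sp8Sym c 1 := fun _ _ => rfl

theorem Sp8Sym.sub {A A' : Module.End ℂ E} (h : Sp8Sym c A) (h' : Sp8Sym c A') : Sp8Sym c (A - A') := by
  intro x y
  have e1 : c.inner ((A - A') x) y = c.inner (A x) y - c.inner (A' x) y := by
    rw [← c.conj_inner_symm, LinearMap.sub_apply, sp8_sub_right, map_sub, c.conj_inner_symm, c.conj_inner_symm]
  rw [e1, LinearMap.sub_apply, sp8_sub_right, h, h']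

theorem Sp8Sym.mul {A A' : Module.End ℂ E} (h : Sp8Sym c A) (h' : Sp8Sym c A') (hc : Commute A A') : Sp8Sym c (A * A') := by
  intro x y
  rw [Module.End.mul_apply, h, h', ← Module.End.mul_apply, ← hc.eq]

theorem Sp8Sym.pow {A : Module.End ℂ E} (h : Sp8Sym c A) (n : ℕ) : Sp8Sym c (A ^ n) := by
  induction n with
  | zero => simpa using Sp8Sym.one
  | succ n ih => rw [pow_succ]; exact ih.mul h (Commute.pow_self A n)

/-- the form `(x, y) ↦ c(x, A y)` for a symmetric nonnegative `A` -/
def sp8Shift (c : PreInnerProductSpace.Core ℂ E) (A : Module.End ℂ E) (hs : Sp8Sym c A) (hp : Sp8Pos c A) : PreInnerProductSpace.Core ℂ E where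
  inner := fun x y => c.inner x (A y)
  conj_inner_symm := fun x y => by
    show conj (c.inner y (A x)) = c.inner x (A y)
    rw [c.conj_inner_symm, hs]
  re_inner_nonneg := hp
  add_left := fun x y z => c.add_left x y (A z)
  smul_left := fun x y r => c.smul_left x (A y) r

/-- **contraction**: a symmetric operator with bounded orbits does not increase the form -/
theorem sp8_contr {T : Module.End ℂ E} (hs : Sp8Sym c T) (hb : Sp8Bdd c T) (x : E) :
    (c.inner (T x) (T x)).re ≤ (c.inner x x).re := by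
  obtain ⟨K, hK⟩ := hb x
  have h := sp8_logconvex (a := fun n => (c.inner ((T ^ n) x) ((T ^ n) x)).re) (fun n => c.re_inner_nonneg _) (fun n => ?_) hK
  · simpa using h
  · -- a_{n+1}^2 = c(T^n x, T^{n+2} x)^2 ≤ a_n a_{n+2}
    have e : c.inner ((T ^ (n + 1)) x) ((T ^ (n + 1)) x) = c.inner ((T ^ n) x) ((T ^ (n + 2)) x) := by
      have e1 : (T ^ (n + 1)) x = T ((T ^ n) x) := by rw [pow_succ', Module.End.mul_apply]
      have e2 : (T ^ (n + 2)) x = T ((T ^ (n + 1)) x) := by rw [pow_succ', Module.End.mul_apply]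
      rw [e2, ← hs, ← e1]
    show (c.inner ((T ^ (n + 1)) x) ((T ^ (n + 1)) x)).re ^ 2 ≤ _
    rw [e]
    exact sp8_re_le c _ _

/-- `1 - T ≥ 0` -/
theorem sp8_one_sub_pos {T : Module.End ℂ E} (hs : Sp8Sym c T) (hb : Sp8Bdd c T) : Sp8Pos c (1 - T) := by
  intro x
  have h1 := sp8_contr hs hb x
  have h2 := sp8_re_le c x (T x)
  have h0 := c.re_inner_nonneg x
  have h3 : (c.inner x (T x)).re ≤ (c.inner x x).re := by
    have h4 : (c.inner x (T x)).re ^ 2 ≤ (c.inner x x).re ^ 2 := by
      refine h2.trans ?_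
      rw [sq]; exact mul_le_mul_of_nonneg_left h1 h0
    exact le_of_sq_le_sq h4 h0 |> fun h => h
  rw [LinearMap.sub_apply, sp8_sub_right]
  simp only [Module.End.one_apply, Complex.sub_re]
  linarith

/-- `T (1 - T) ≥ 0` -/
theorem sp8_mul_one_sub_pos {T : Module.End ℂ E} (hs : Sp8Sym c T) (hp : Sp8Pos c T) (hb : Sp8Bdd c T) :
    Sp8Pos c (T * (1 - T)) := by
  have hs' : Sp8Sym (sp8Shift c T hs hp) T := by
    intro x y
    show c.inner (T x) (T y) = c.inner x (T (T y))
    rw [hs]
  have hb' : Sp8Bdd (sp8Shift c T hs hp) T := by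
    intro x
    obtain ⟨K, hK⟩ := hb x
    refine ⟨K, fun n => ?_⟩
    show (c.inner ((T ^ n) x) (T ((T ^ n) x))).re ≤ K
    have e1 : T ((T ^ n) x) = (T ^ (n + 1)) x := by rw [pow_succ', Module.End.mul_apply]
    rw [e1]
    have h1 := sp8_re_le c ((T ^ n) x) ((T ^ (n + 1)) x)
    have h2 := hK n
    have h3 := hK (n + 1)
    have h4 := c.re_inner_nonneg ((T ^ n) x)
    have h5 := c.re_inner_nonneg ((T ^ (n + 1)) x)
    have hK0 : 0 ≤ K := h4.trans h2
    have h6 : (c.inner ((T ^ n) x) ((T ^ (n + 1)) x)).re ^ 2 ≤ K ^ 2 := by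
      refine h1.trans ?_
      rw [sq]; exact mul_le_mul h2 h3 h5 hK0
    exact le_of_sq_le_sq h6 hK0
  intro x
  exact sp8_one_sub_pos hs' hb' x

theorem Sp8Pos.conj {W R : Module.End ℂ E} (hW : Sp8Pos c W) (hR : Sp8Sym c R) : Sp8Pos c (R * W * R) := by
  intro x
  have := hW (R x)
  rw [Module.End.mul_apply, Module.End.mul_apply, ← hR]
  exact this

theorem Sp8Pos.one : Sp8Pos c 1 := fun x => c.re_inner_nonneg x

/-- **complete monotonicity**: `T ^ k (1 - T) ^ l ≥ 0` -/
theorem sp8_pow_mul_pow_pos {T : Module.End ℂ E} (hs : Sp8Sym c T) (hp : Sp8Pos c T) (hb : Sp8Bdd c T) (k l : ℕ) :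
    Sp8Pos c (T ^ k * (1 - T) ^ l) := by
  have hS : Sp8Sym c (1 - T) := Sp8Sym.one.sub hs
  have hcomm : Commute T (1 - T) := (Commute.one_right T).sub_right (Commute.refl T)
  have hR : ∀ a b : ℕ, Sp8Sym c (T ^ a * (1 - T) ^ b) := fun a b => (hs.pow a).mul (hS.pow b) (hcomm.pow_pow a b)
  have key : ∀ (a b e d : ℕ), T ^ (2 * a + e) * (1 - T) ^ (2 * b + d)
      = (T ^ a * (1 - T) ^ b) * (T ^ e * (1 - T) ^ d) * (T ^ a * (1 - T) ^ b) := by
    intro a b e d
    have h : ((X : ℂ[X]) ^ (2 * a + e) * (1 - X) ^ (2 * b + d))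
        = (X ^ a * (1 - X) ^ b) * (X ^ e * (1 - X) ^ d) * (X ^ a * (1 - X) ^ b) := by ring
    have := congrArg (Polynomial.aeval T) h
    simpa using this
  have hW : ∀ e d : ℕ, e < 2 → d < 2 → Sp8Pos c (T ^ e * (1 - T) ^ d) := by
    intro e d he hd
    interval_cases e <;> interval_cases d
    · simpa using Sp8Pos.one
    · simpa using sp8_one_sub_pos hs hb
    · simpa using hp
    · simpa using sp8_mul_one_sub_pos hs hp hb
  have hk : k = 2 * (k / 2) + k % 2 := (Nat.div_add_mod k 2).symm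
  have hl : l = 2 * (l / 2) + l % 2 := (Nat.div_add_mod l 2).symm
  rw [hk, hl, key]
  exact (hW _ _ (Nat.mod_lt _ (by norm_num)) (Nat.mod_lt _ (by norm_num))).conj (hR _ _)

end form

/-! ## 2. extension of operators to the completion -/


section ips

variable {E : Type*} [SeminormedAddCommGroup E] [InnerProductSpace ℂ E]

theorem sp8_compl_mul (A B : E →L[ℂ] E) : (A * B).completion = A.completion * B.completion := by
  ext x
  induction x using Completion.induction_on with
  | hp => exact isClosed_eq (A * B).completion.continuous (A.completion * B.completion).continuous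
  | ih a => simp

theorem sp8_compl_one : (1 : E →L[ℂ] E).completion = 1 := by
  ext x
  induction x using Completion.induction_on with
  | hp => exact isClosed_eq (1 : E →L[ℂ] E).completion.continuous continuous_id
  | ih a => simp

theorem sp8_compl_pow (A : E →L[ℂ] E) (j : ℕ) : (A ^ j).completion = A.completion ^ j := by
  induction j with
  | zero => simpa using sp8_compl_one
  | succ j ih => rw [pow_succ, pow_succ, sp8_compl_mul, ih]

theorem sp8_compl_inner {A B : E →L[ℂ] E} (h : ∀ x y, ⟪A x, y⟫_ℂ = ⟪x, B y⟫_ℂ) (x y : Completion E) :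
    ⟪A.completion x, y⟫_ℂ = ⟪x, B.completion y⟫_ℂ := by
  induction x, y using Completion.induction_on₂ with
  | hp =>
    apply isClosed_eq
    · exact Completion.Continuous.inner (A.completion.continuous.comp continuous_fst) continuous_snd
    · exact Completion.Continuous.inner continuous_fst (B.completion.continuous.comp continuous_snd)
  | ih a b => simp [Completion.inner_coe, h]

theorem sp8_compl_star {A B : E →L[ℂ] E} (h : ∀ x y, ⟪A x, y⟫_ℂ = ⟪x, B y⟫_ℂ) :
    star A.completion = B.completion := by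
  rw [ContinuousLinearMap.star_eq_adjoint]
  symm
  rw [ContinuousLinearMap.eq_adjoint_iff]
  intro x y
  have := sp8_compl_inner h y x
  rw [← inner_conj_symm, ← this, inner_conj_symm]

theorem sp8_compl_norm {A : E →L[ℂ] E} (h : ∀ x, ‖A x‖ ≤ ‖x‖) : ‖A.completion‖ ≤ 1 := by
  refine ContinuousLinearMap.opNorm_le_bound _ zero_le_one fun x => ?_
  rw [one_mul]
  induction x using Completion.induction_on with
  | hp => exact isClosed_le (continuous_norm.comp A.completion.continuous) continuous_norm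
  | ih a => simpa [Completion.norm_coe] using h a

theorem sp8_compl_pos {A : E →L[ℂ] E} (hs : ∀ x y, ⟪A x, y⟫_ℂ = ⟪x, A y⟫_ℂ) (hp : ∀ x, 0 ≤ (⟪x, A x⟫_ℂ).re) :
    A.completion.IsPositive := by
  refine ⟨fun x y => sp8_compl_inner hs x y, fun x => ?_⟩
  show 0 ≤ RCLike.re ⟪A.completion x, x⟫_ℂ
  induction x using Completion.induction_on with
  | hp =>
    apply isClosed_le continuous_const
    exact RCLike.continuous_re.comp (Completion.Continuous.inner A.completion.continuous continuous_id)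
  | ih a =>
    have := hp a
    rw [← hs] at this
    simpa [Completion.inner_coe] using this

/-- **joint scalar spectral measure, pre-Hilbert form**: no completeness, no separation. -/
theorem sp8_ips {ι : Type*} [Fintype ι] (U : (ι → ℤ) → Module.End ℂ E) (hU0 : U 0 = 1)
    (hUadd : ∀ m n, U (m + n) = U m * U n) (hUiso : ∀ n x y, ⟪U n x, U n y⟫_ℂ = ⟪x, y⟫_ℂ)
    (T : Module.End ℂ E) (hs : ∀ x y, ⟪T x, y⟫_ℂ = ⟪x, T y⟫_ℂ) (hp : ∀ x, 0 ≤ (⟪x, T x⟫_ℂ).re)
    (hc : ∀ x, ‖T x‖ ≤ ‖x‖) (hUT : ∀ n, U n * T = T * U n) (x : E) :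
    ∃ μ : Measure (UnitAddTorus ι × unitInterval), IsFiniteMeasure μ ∧ μ.Regular ∧
      ∀ (n : ι → ℤ) (j : ℕ), ∫ p, gspChi n p * gspLam ι p ^ j ∂μ = ⟪x, U n ((T ^ j) x)⟫_ℂ := by
  have hUn : ∀ n x, ‖U n x‖ ≤ 1 * ‖x‖ := by
    intro n x
    rw [one_mul]
    have h1 : ‖U n x‖ ^ 2 = ‖x‖ ^ 2 := by
      rw [← inner_self_eq_norm_sq (𝕜 := ℂ), ← inner_self_eq_norm_sq (𝕜 := ℂ), hUiso]
    exact le_of_eq (by
      have := congrArg Real.sqrt h1
      rwa [Real.sqrt_sq (norm_nonneg _), Real.sqrt_sq (norm_nonneg _)] at this)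
  let Uc : (ι → ℤ) → E →L[ℂ] E := fun n => (U n).mkContinuous 1 (hUn n)
  let Tc : E →L[ℂ] E := T.mkContinuous 1 (fun x => by rw [one_mul]; exact hc x)
  have hUc : ∀ n x, Uc n x = U n x := fun n x => rfl
  have hTc : ∀ x, Tc x = T x := fun x => rfl
  have hTcp : ∀ (j : ℕ) x, (Tc ^ j) x = (T ^ j) x := by
    intro j
    induction j with
    | zero => intro x; simp
    | succ j ih =>
      intro x
      rw [pow_succ, pow_succ, mul_apply_eq_comp, Module.End.mul_apply, ih, hTc]
  have hadj : ∀ n x y, ⟪Uc n x, y⟫_ℂ = ⟪x, Uc (-n) y⟫_ℂ := by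
    intro n x y
    have e : y = U n (U (-n) y) := by
      rw [← Module.End.mul_apply, ← hUadd, add_neg_cancel, hU0, Module.End.one_apply]
    rw [hUc, hUc]
    conv_lhs => rw [e]
    rw [hUiso]
  have hRep : GspRep (fun n => (Uc n).completion) := by
    refine ⟨?_, ?_, ?_⟩
    · have : Uc 0 = 1 := by
        ext x; rw [hUc, hU0]; rfl
      show (Uc 0).completion = 1
      rw [this, sp8_compl_one]
    · intro m n
      have : Uc (m + n) = Uc m * Uc n := by
        ext x; rw [hUc, hUadd]; rfl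
      show (Uc (m + n)).completion = (Uc m).completion * (Uc n).completion
      rw [this, sp8_compl_mul]
    · intro n
      exact sp8_compl_star (hadj n)
  have hS : Tc.completion.IsPositive := sp8_compl_pos hs hp
  have hS1 : ‖Tc.completion‖ ≤ 1 := sp8_compl_norm hc
  have hTS : ∀ n, (Uc n).completion * Tc.completion = Tc.completion * (Uc n).completion := by
    intro n
    rw [← sp8_compl_mul, ← sp8_compl_mul]
    congr 1
    ext x
    have := congrArg (fun A : Module.End ℂ E => A x) (hUT n)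
    exact this
  obtain ⟨Ψ, hΨ1, hΨ2⟩ := gsp_joint hRep hS hS1 hTS
  obtain ⟨μ, h1, h2, h3⟩ := gsp_calc_measure Ψ (x : Completion E)
  refine ⟨μ, h1, h2, fun n j => ?_⟩
  have h4 := h3 (gspChi n * gspLam ι ^ j)
  rw [map_mul, map_pow, hΨ1, hΨ2, ← sp8_compl_pow, ← sp8_compl_mul, ContinuousLinearMap.completion_apply_coe,
    Completion.inner_coe] at h4
  rw [mul_apply_eq_comp, hUc, hTcp] at h4
  rw [h4]
  rfl

end ips

/-! ## 3. the form version -/

/-- **joint scalar spectral measure of a form** (TEX[lem:spectra:unitary], TEX[lem:spectra:transfer]): `U` a representation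
of `ℤ^ι` by isometries of the form `c`, `T` symmetric, nonnegative, with bounded orbits, commuting with `U`. -/
theorem sp8_core {E : Type*} [AddCommGroup E] [Module ℂ E] (c : PreInnerProductSpace.Core ℂ E)
    {ι : Type*} [Fintype ι] (U : (ι → ℤ) → Module.End ℂ E) (hU0 : U 0 = 1)
    (hUadd : ∀ m n, U (m + n) = U m * U n) (hUiso : ∀ n x y, c.inner (U n x) (U n y) = c.inner x y)
    (T : Module.End ℂ E) (hs : Sp8Sym c T) (hp : Sp8Pos c T) (hb : Sp8Bdd c T)
    (hUT : ∀ n, U n * T = T * U n) (x : E) :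
    ∃ μ : Measure (UnitAddTorus ι × unitInterval), IsFiniteMeasure μ ∧ μ.Regular ∧
      ∀ (n : ι → ℤ) (j : ℕ), ∫ p, gspChi n p * gspLam ι p ^ j ∂μ = c.inner x (U n ((T ^ j) x)) := by
  let _ : SeminormedAddCommGroup E := @InnerProductSpace.Core.toSeminormedAddCommGroup ℂ E _ _ _ c
  let _ : InnerProductSpace ℂ E := InnerProductSpace.ofCore c
  exact sp8_ips U hU0 hUadd hUiso T hs hp (fun x => Real.sqrt_le_sqrt (sp8_contr hs hb x)) hUT x

/-! ## 4. the sequence version -/


section bh

variable {ι : Type*}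

/-- the sesquilinear form of a function on `ℤ^ι × ℕ` -/
noncomputable def sp8F (φ : (ι → ℤ) → ℕ → ℂ) (a b : ((ι → ℤ) × ℕ) →₀ ℂ) : ℂ :=
  a.sum fun p u => b.sum fun q v => conj u * v * φ (q.1 - p.1) (p.2 + q.2)

theorem sp8F_add_left (φ : (ι → ℤ) → ℕ → ℂ) (a a' b : ((ι → ℤ) × ℕ) →₀ ℂ) :
    sp8F φ (a + a') b = sp8F φ a b + sp8F φ a' b := by
  unfold sp8F
  apply Finsupp.sum_add_index'
  · intro p; simp
  · intro p u u'
    simp only [Finsupp.sum, map_add, add_mul, Finset.sum_add_distrib]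

theorem sp8F_smul_left (φ : (ι → ℤ) → ℕ → ℂ) (a b : ((ι → ℤ) × ℕ) →₀ ℂ) (r : ℂ) :
    sp8F φ (r • a) b = conj r * sp8F φ a b := by
  unfold sp8F
  rw [Finsupp.sum_smul_index (by intro p; simp)]
  simp only [Finsupp.sum, map_mul, Finset.mul_sum]
  refine Finset.sum_congr rfl fun p _ => Finset.sum_congr rfl fun q _ => ?_
  ring

theorem sp8F_conj (φ : (ι → ℤ) → ℕ → ℂ) (hsym : ∀ m j, φ (-m) j = conj (φ m j)) (a b : ((ι → ℤ) × ℕ) →₀ ℂ) :
    conj (sp8F φ b a) = sp8F φ a b := by
  unfold sp8F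
  simp only [Finsupp.sum, map_sum, map_mul, Complex.conj_conj]
  rw [Finset.sum_comm]
  refine Finset.sum_congr rfl fun p _ => Finset.sum_congr rfl fun q _ => ?_
  rw [← hsym, neg_sub, add_comm q.2]
  ring

theorem sp8F_map (φ : (ι → ℤ) → ℕ → ℂ) (f g : (ι → ℤ) × ℕ → (ι → ℤ) × ℕ) (a b : ((ι → ℤ) × ℕ) →₀ ℂ) :
    sp8F φ (a.mapDomain f) (b.mapDomain g)
      = a.sum fun p u => b.sum fun q v => conj u * v * φ ((g q).1 - (f p).1) ((f p).2 + (g q).2) := by
  unfold sp8F
  rw [Finsupp.sum_mapDomain_index (by intro p; simp) (by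
    intro p u u'
    simp only [Finsupp.sum, map_add, add_mul, Finset.sum_add_distrib])]
  refine Finsupp.sum_congr fun p _ => ?_
  rw [Finsupp.sum_mapDomain_index (by intro q; simp) (by intro q v v'; ring)]

theorem sp8F_single (φ : (ι → ℤ) → ℕ → ℂ) (p q : (ι → ℤ) × ℕ) (u v : ℂ) :
    sp8F φ (Finsupp.single p u) (Finsupp.single q v) = conj u * v * φ (q.1 - p.1) (p.2 + q.2) := by
  unfold sp8F
  rw [Finsupp.sum_single_index (by simp), Finsupp.sum_single_index (by simp)]

/-- the form as a `Core` -/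
noncomputable def sp8FC (φ : (ι → ℤ) → ℕ → ℂ) (hsym : ∀ m j, φ (-m) j = conj (φ m j))
    (hP0 : ∀ (s : Finset ((ι → ℤ) × ℕ)) (a : (ι → ℤ) × ℕ → ℂ),
      0 ≤ (∑ p ∈ s, ∑ q ∈ s, conj (a p) * a q * φ (q.1 - p.1) (p.2 + q.2)).re) :
    PreInnerProductSpace.Core ℂ (((ι → ℤ) × ℕ) →₀ ℂ) where
  inner := sp8F φ
  conj_inner_symm := fun a b => sp8F_conj φ hsym a b
  re_inner_nonneg := fun a => hP0 a.support a
  add_left := sp8F_add_left φ
  smul_left := sp8F_smul_left φ

/-- **Bochner + Hausdorff in one theorem** (94's master form BH): a function on `ℤ^ι × ℕ` which is positive definite,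
whose shift in the `ℕ` variable is positive definite and which is bounded along `(0, j)` is the moment function of a finite
measure on `torus × [0,1]`. -/
theorem sp8_bh [Fintype ι] (φ : (ι → ℤ) → ℕ → ℂ) (hsym : ∀ m j, φ (-m) j = conj (φ m j))
    (hP0 : ∀ (s : Finset ((ι → ℤ) × ℕ)) (a : (ι → ℤ) × ℕ → ℂ),
      0 ≤ (∑ p ∈ s, ∑ q ∈ s, conj (a p) * a q * φ (q.1 - p.1) (p.2 + q.2)).re)
    (hP1 : ∀ (s : Finset ((ι → ℤ) × ℕ)) (a : (ι → ℤ) × ℕ → ℂ),
      0 ≤ (∑ p ∈ s, ∑ q ∈ s, conj (a p) * a q * φ (q.1 - p.1) (p.2 + q.2 + 1)).re)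
    {K : ℝ} (hB : ∀ j, ‖φ 0 j‖ ≤ K) :
    ∃ μ : Measure (UnitAddTorus ι × unitInterval), IsFiniteMeasure μ ∧ μ.Regular ∧
      ∀ (n : ι → ℤ) (j : ℕ), ∫ p, gspChi n p * gspLam ι p ^ j ∂μ = φ n j := by
  set c := sp8FC φ hsym hP0 with hc
  have hci : ∀ a b, c.inner a b = sp8F φ a b := fun _ _ => rfl
  let U : (ι → ℤ) → Module.End ℂ (((ι → ℤ) × ℕ) →₀ ℂ) := fun n => Finsupp.lmapDomain ℂ ℂ fun p => (p.1 + n, p.2)
  let T : Module.End ℂ (((ι → ℤ) × ℕ) →₀ ℂ) := Finsupp.lmapDomain ℂ ℂ fun p => (p.1, p.2 + 1)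
  have hUa : ∀ n a, U n a = a.mapDomain fun p => (p.1 + n, p.2) := fun _ _ => rfl
  have hTa : ∀ a, T a = a.mapDomain fun p => (p.1, p.2 + 1) := fun _ => rfl
  have hTp : ∀ (j : ℕ) a, (T ^ j) a = a.mapDomain fun p => (p.1, p.2 + j) := by
    intro j
    induction j with
    | zero => intro a; exact Finsupp.mapDomain_id.symm
    | succ j ih =>
      intro a
      rw [pow_succ', Module.End.mul_apply, ih, hTa, ← Finsupp.mapDomain_comp]
      rfl
  have hK : ∀ m j, ‖φ m j‖ ≤ K := by
    intro m j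
    have h := sp8_cs c (Finsupp.single (0, 0) 1) (Finsupp.single (m, j) 1)
    rw [hci, hci, hci, sp8F_single, sp8F_single, sp8F_single] at h
    simp only [map_one, one_mul, sub_zero, zero_add, sub_self] at h
    have h1 : (φ 0 (0 + 0)).re ≤ K := (Complex.re_le_norm _).trans (hB _)
    have h2 : (φ 0 (j + j)).re ≤ K := (Complex.re_le_norm _).trans (hB _)
    have h3 : 0 ≤ (φ 0 (j + j)).re := by
      have := c.re_inner_nonneg (Finsupp.single (m, j) 1)
      rw [hci, sp8F_single] at this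
      simpa using this
    have h4 : 0 ≤ (φ 0 (0 + 0)).re := by
      have := c.re_inner_nonneg (Finsupp.single ((0 : ι → ℤ), 0) 1)
      rw [hci, sp8F_single] at this
      simpa using this
    have hK0 : 0 ≤ K := h4.trans h1
    have h5 : ‖φ m j‖ ^ 2 ≤ K ^ 2 := by
      refine h.trans ?_
      rw [sq]; exact mul_le_mul h1 h2 h3 hK0
    exact le_of_sq_le_sq h5 hK0
  have g1 : U 0 = 1 := by
    apply LinearMap.ext
    intro a
    rw [hUa]
    simp only [add_zero, Module.End.one_apply]
    exact Finsupp.mapDomain_id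
  have g2 : ∀ m n, U (m + n) = U m * U n := by
    intro m n
    apply LinearMap.ext
    intro a
    rw [Module.End.mul_apply, hUa, hUa, hUa, ← Finsupp.mapDomain_comp]
    congr 1
    funext p
    simp only [Function.comp]
    rw [add_comm m n, add_assoc]
  have g3 : ∀ n a b, c.inner (U n a) (U n b) = c.inner a b := by
    intro n a b
    rw [hci, hci, hUa, hUa, sp8F_map]
    simp only [add_sub_add_right_eq_sub]
    rfl
  have g4 : Sp8Sym c T := by
    intro a b
    have e1 : sp8F φ (T a) b = sp8F φ (T a) (b.mapDomain id) := by rw [Finsupp.mapDomain_id]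
    have e2 : sp8F φ a (T b) = sp8F φ (a.mapDomain id) (T b) := by rw [Finsupp.mapDomain_id]
    rw [hci, hci, e1, e2, hTa, hTa, sp8F_map, sp8F_map]
    refine Finsupp.sum_congr fun p _ => Finsupp.sum_congr fun q _ => ?_
    simp only [id]
    rw [add_right_comm, add_assoc]
  have g5 : Sp8Pos c T := by
    intro a
    have e2 : sp8F φ a (T a) = sp8F φ (a.mapDomain id) (T a) := by rw [Finsupp.mapDomain_id]
    rw [hci, e2, hTa, sp8F_map]
    have := hP1 a.support a
    simp only [id, ← add_assoc]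
    exact this
  have g6 : Sp8Bdd c T := by
    intro a
    refine ⟨∑ p ∈ a.support, ∑ q ∈ a.support, ‖a p‖ * ‖a q‖ * K, fun n => ?_⟩
    rw [hci, hTp, sp8F_map]
    refine (Complex.re_le_norm _).trans ?_
    refine (norm_sum_le _ _).trans (Finset.sum_le_sum fun p _ => ?_)
    refine (norm_sum_le _ _).trans (Finset.sum_le_sum fun q _ => ?_)
    rw [norm_mul, norm_mul, RCLike.norm_conj]
    exact mul_le_mul_of_nonneg_left (hK _ _) (by positivity)
  have g7 : ∀ n, U n * T = T * U n := by
    intro n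
    apply LinearMap.ext
    intro a
    rw [Module.End.mul_apply, Module.End.mul_apply, hUa, hUa, hTa, hTa, ← Finsupp.mapDomain_comp, ← Finsupp.mapDomain_comp]
    rfl
  obtain ⟨μ, h1, h2, h3⟩ := sp8_core c U g1 g2 g3 T g4 g5 g6 g7 (Finsupp.single (0, 0) 1)
  refine ⟨μ, h1, h2, fun n j => ?_⟩
  rw [h3, hTp, hUa, Finsupp.mapDomain_single, Finsupp.mapDomain_single, hci, sp8F_single]
  simp

end bh

end Claimed.Agent.R291
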