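import Claimed.Agent.R291.Spec.Mom

set_option autoImplicit false

namespace Claimed.Agent.R291

open MeasureTheory Filter Topology Set
open scoped InnerProductSpace ComplexConjugate

/-! ## 6. the box forms on `ℝ × ℝ` -/

section pull

/-- the pull back of a positive definite kernel under any map is positive definite -/
theorem gsp_pd_pull {X X' : Type*} [DecidableEq X'] (K : X' → X' → ℂ)
    (hK : ∀ (s : Finset X') (a : X' → ℂ), 0 ≤ (∑ p ∈ s, ∑ q ∈ s, conj (a p) * a q * K p q).re)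
    (f : X → X') (s : Finset X) (a : X → ℂ) :
    0 ≤ (∑ p ∈ s, ∑ q ∈ s, conj (a p) * a q * K (f p) (f q)).re := by
  have h := hK (s.image f) (fun y => ∑ x ∈ s with f x = y, a x)
  have hm : ∀ x ∈ s, f x ∈ s.image f := fun x hx => Finset.mem_image_of_mem f hx
  have e : ∑ p ∈ s.image f, ∑ q ∈ s.image f, conj (∑ x ∈ s with f x = p, a x) * (∑ x ∈ s with f x = q, a x) * K p q
      = ∑ p ∈ s, ∑ q ∈ s, conj (a p) * a q * K (f p) (f q) := by
    rw [← Finset.sum_fiberwise_of_maps_to hm]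
    refine Finset.sum_congr rfl fun y _ => ?_
    have h1 : ∀ p ∈ s, ∑ q ∈ s, conj (a p) * a q * K (f p) (f q)
        = ∑ y' ∈ s.image f, ∑ q ∈ s with f q = y', conj (a p) * a q * K (f p) y' := by
      intro p _
      rw [← Finset.sum_fiberwise_of_maps_to hm]
      refine Finset.sum_congr rfl fun y' _ => Finset.sum_congr rfl fun q hq => ?_
      rw [(Finset.mem_filter.1 hq).2]
    rw [Finset.sum_congr rfl fun p hp => h1 p (Finset.mem_filter.1 hp).1, Finset.sum_comm]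
    refine Finset.sum_congr rfl fun y' _ => ?_
    rw [map_sum, Finset.sum_mul_sum, Finset.sum_mul]
    refine Finset.sum_congr rfl fun p hp => ?_
    rw [Finset.sum_mul, (Finset.mem_filter.1 hp).2]
  rwa [e] at h

end pull

section box2

/-- the box chart of the two dimensional torus -/
noncomputable def gspB2 (x : UnitAddTorus (Fin 2)) : ℝ × ℝ := (gspArg (x 0), gspArg (x 1))

/-- its inverse -/
noncomputable def gspU2 (p : ℝ × ℝ) : UnitAddTorus (Fin 2) := ![gspPt p.1, gspPt p.2]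

theorem gspB2_measurable : Measurable gspB2 :=
  (gspArg_measurable.comp (measurable_pi_apply 0)).prodMk (gspArg_measurable.comp (measurable_pi_apply 1))

theorem gspU2_continuous : Continuous gspU2 := by
  refine continuous_pi fun r => ?_
  fin_cases r
  · exact gspPt_continuous.comp continuous_fst
  · exact gspPt_continuous.comp continuous_snd

theorem gspB2_mem (x : UnitAddTorus (Fin 2)) : gspB2 x ∈ Ioc (-Real.pi) Real.pi ×ˢ Ioc (-Real.pi) Real.pi :=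
  ⟨gspArg_mem _, gspArg_mem _⟩

theorem gspB2_U2 {p : ℝ × ℝ} (hp : p ∈ Ioc (-Real.pi) Real.pi ×ˢ Ioc (-Real.pi) Real.pi) : gspB2 (gspU2 p) = p :=
  Prod.ext (gspArg_pt hp.1) (gspArg_pt hp.2)

theorem gspU2_B2 (x : UnitAddTorus (Fin 2)) : gspU2 (gspB2 x) = x := by
  funext r
  fin_cases r
  · exact gspPt_arg _
  · exact gspPt_arg _

theorem gsp_mFourier_U2 (n : Fin 2 → ℤ) (p : ℝ × ℝ) :
    UnitAddTorus.mFourier n (gspU2 p) = Complex.exp (Complex.I * (n 0 * p.1 + n 1 * p.2)) := by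
  show ∏ r, fourier (n r) (gspU2 p r) = _
  rw [Fin.prod_univ_two, mul_add, Complex.exp_add]
  exact congrArg₂ _ (gsp_fourier_pt _ _) (gsp_fourier_pt _ _)

theorem gsp_mFourier_B2 (n : Fin 2 → ℤ) (x : UnitAddTorus (Fin 2)) :
    UnitAddTorus.mFourier n x = Complex.exp (Complex.I * (n 0 * (gspB2 x).1 + n 1 * (gspB2 x).2)) := by
  conv_lhs => rw [← gspU2_B2 x]
  exact gsp_mFourier_U2 n _

theorem gsp_exp2_continuous (m n : ℤ) :
    Continuous fun p : ℝ × ℝ => Complex.exp (Complex.I * (m * p.1 + n * p.2)) := by fun_prop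

/-- **(iii) uniqueness on `ℝ × ℝ`**: two finite measures carried by `(-π,π]²` with equal Fourier coefficients are equal -/
theorem gsp_box2_unique {μ ν : Measure (ℝ × ℝ)} [IsFiniteMeasure μ] [IsFiniteMeasure ν]
    (hμ : μ (Ioc (-Real.pi) Real.pi ×ˢ Ioc (-Real.pi) Real.pi)ᶜ = 0)
    (hν : ν (Ioc (-Real.pi) Real.pi ×ˢ Ioc (-Real.pi) Real.pi)ᶜ = 0)
    (h : ∀ m n : ℤ, ∫ p, Complex.exp (Complex.I * (m * p.1 + n * p.2)) ∂μ
      = ∫ p, Complex.exp (Complex.I * (m * p.1 + n * p.2)) ∂ν) : μ = ν := by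
  have hm : Measurable gspU2 := gspU2_continuous.measurable
  have h1 : μ.map gspU2 = ν.map gspU2 := by
    refine gsp_torus_unique fun n => ?_
    rw [integral_map hm.aemeasurable (UnitAddTorus.mFourier n).continuous.aestronglyMeasurable,
      integral_map hm.aemeasurable (UnitAddTorus.mFourier n).continuous.aestronglyMeasurable]
    simp_rw [gsp_mFourier_U2]
    exact h _ _
  have h2 : ∀ κ : Measure (ℝ × ℝ), κ (Ioc (-Real.pi) Real.pi ×ˢ Ioc (-Real.pi) Real.pi)ᶜ = 0 →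
      (κ.map gspU2).map gspB2 = κ := by
    intro κ hκ
    rw [Measure.map_map gspB2_measurable hm]
    have h3 : ∀ᵐ p ∂κ, p ∈ Ioc (-Real.pi) Real.pi ×ˢ Ioc (-Real.pi) Real.pi := mem_ae_iff.2 hκ
    have : (gspB2 ∘ gspU2 : ℝ × ℝ → ℝ × ℝ) =ᵐ[κ] id := h3.mono fun p hp => gspB2_U2 hp
    rw [Measure.map_congr this, Measure.map_id]
  rw [← h2 μ hμ, ← h2 ν hν, h1]

/-- transport of a measure on the torus to the box -/
theorem gsp_box2_of_torus (μ : Measure (UnitAddTorus (Fin 2))) [IsFiniteMeasure μ] :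
    IsFiniteMeasure (μ.map gspB2) ∧ (μ.map gspB2) (Ioc (-Real.pi) Real.pi ×ˢ Ioc (-Real.pi) Real.pi)ᶜ = 0 ∧
      ∀ m n : ℤ, ∫ p, Complex.exp (Complex.I * (m * p.1 + n * p.2)) ∂(μ.map gspB2)
        = ∫ x, UnitAddTorus.mFourier ![m, n] x ∂μ := by
  refine ⟨Measure.isFiniteMeasure_map μ _, ?_, fun m n => ?_⟩
  · rw [Measure.map_apply gspB2_measurable (measurableSet_Ioc.prod measurableSet_Ioc).compl]
    have : gspB2 ⁻¹' (Ioc (-Real.pi) Real.pi ×ˢ Ioc (-Real.pi) Real.pi)ᶜ = ∅ := by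
      ext x
      simp only [mem_preimage, mem_compl_iff, mem_empty_iff_false, iff_false, not_not]
      exact gspB2_mem x
    rw [this, measure_empty]
  · rw [integral_map gspB2_measurable.aemeasurable (gsp_exp2_continuous m n).aestronglyMeasurable]
    refine integral_congr_ae (Eventually.of_forall fun x => ?_)
    exact (gsp_mFourier_B2 ![m, n] x).symm

/-- **(i) Bochner on `ℤ²`, box form** -/
theorem gsp_bochner2 (φ : ℤ × ℤ → ℂ) (hsym : ∀ u, φ (-u) = conj (φ u))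
    (hP : ∀ (s : Finset (ℤ × ℤ)) (a : ℤ × ℤ → ℂ), 0 ≤ (∑ p ∈ s, ∑ q ∈ s, conj (a p) * a q * φ (q - p)).re) :
    ∃ μ : Measure (ℝ × ℝ), IsFiniteMeasure μ ∧ μ (Ioc (-Real.pi) Real.pi ×ˢ Ioc (-Real.pi) Real.pi)ᶜ = 0 ∧
      ∀ m n : ℤ, ∫ p, Complex.exp (Complex.I * (m * p.1 + n * p.2)) ∂μ = φ (m, n) := by
  have hpd : ∀ (s : Finset ((Fin 2 → ℤ) × ℕ)) (a : (Fin 2 → ℤ) × ℕ → ℂ),
      0 ≤ (∑ p ∈ s, ∑ q ∈ s, conj (a p) * a q * φ ((q.1 - p.1) 0, (q.1 - p.1) 1)).re := fun s a =>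
    gsp_pd_pull (fun p q => φ (q - p)) hP (fun p : (Fin 2 → ℤ) × ℕ => (p.1 0, p.1 1)) s a
  obtain ⟨μ₀, hfin, -, hμ₀⟩ := sp8_bh (ι := Fin 2) (fun n _ => φ (n 0, n 1)) (fun m _ => hsym (m 0, m 1)) hpd hpd
    (K := ‖φ (0, 0)‖) (fun _ => le_rfl)
  have := Measure.isFiniteMeasure_map μ₀ Prod.fst
  obtain ⟨h1, h2, h3⟩ := gsp_box2_of_torus (μ₀.map Prod.fst)
  refine ⟨_, h1, h2, fun m n => ?_⟩
  rw [h3, gsp_fst_moment, hμ₀]
  rfl

end box2

section box1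

/-- the box chart of `circle × [0,1]` -/
noncomputable def gspB1 (x : UnitAddTorus (Fin 1) × unitInterval) : ℝ × ℝ := (gspArg (x.1 0), (x.2 : ℝ))

/-- its inverse -/
noncomputable def gspU1 (p : ℝ × ℝ) : UnitAddTorus (Fin 1) × unitInterval :=
  (fun _ => gspPt p.1, projIcc 0 1 zero_le_one p.2)

theorem gspB1_measurable : Measurable gspB1 :=
  (gspArg_measurable.comp ((measurable_pi_apply 0).comp measurable_fst)).prodMk
    (measurable_subtype_coe.comp measurable_snd)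

theorem gspU1_continuous : Continuous gspU1 :=
  (continuous_pi fun _ => gspPt_continuous.comp continuous_fst).prodMk (continuous_projIcc.comp continuous_snd)

theorem gspB1_mem (x : UnitAddTorus (Fin 1) × unitInterval) : gspB1 x ∈ Ioc (-Real.pi) Real.pi ×ˢ Icc (0 : ℝ) 1 :=
  ⟨gspArg_mem _, x.2.2⟩

theorem gspB1_U1 {p : ℝ × ℝ} (hp : p ∈ Ioc (-Real.pi) Real.pi ×ˢ Icc (0 : ℝ) 1) : gspB1 (gspU1 p) = p :=
  Prod.ext (gspArg_pt hp.1) (by show ((projIcc 0 1 zero_le_one p.2 : Icc (0 : ℝ) 1) : ℝ) = p.2; rw [projIcc_of_mem _ hp.2])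

theorem gspU1_B1 (x : UnitAddTorus (Fin 1) × unitInterval) : gspU1 (gspB1 x) = x := by
  refine Prod.ext (funext fun r => ?_) ?_
  · fin_cases r
    exact gspPt_arg _
  · exact projIcc_val zero_le_one x.2

theorem gsp_mon_U1 (n : Fin 1 → ℤ) (j : ℕ) {p : ℝ × ℝ} (hp : p.2 ∈ Icc (0 : ℝ) 1) :
    gspChi n (gspU1 p) * gspLam (Fin 1) (gspU1 p) ^ j = Complex.exp (Complex.I * (n 0 * p.1)) * (p.2 : ℂ) ^ j := by
  have h1 : gspChi n (gspU1 p) = Complex.exp (Complex.I * (n 0 * p.1)) := by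
    show ∏ r, fourier (n r) (gspPt p.1) = _
    rw [Fin.prod_univ_one]
    exact gsp_fourier_pt _ _
  have h2 : gspLam (Fin 1) (gspU1 p) = (p.2 : ℂ) := by
    show (((projIcc 0 1 zero_le_one p.2 : Icc (0 : ℝ) 1) : ℝ) : ℂ) = _
    rw [projIcc_of_mem _ hp]
  rw [h1, h2]

theorem gsp_mon_B1 (n : Fin 1 → ℤ) (j : ℕ) (x : UnitAddTorus (Fin 1) × unitInterval) :
    gspChi n x * gspLam (Fin 1) x ^ j = Complex.exp (Complex.I * (n 0 * (gspB1 x).1)) * ((gspB1 x).2 : ℂ) ^ j := by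
  conv_lhs => rw [← gspU1_B1 x]
  exact gsp_mon_U1 n j (gspB1_mem x).2

theorem gsp_exp1_continuous (m : ℤ) (j : ℕ) :
    Continuous fun p : ℝ × ℝ => Complex.exp (Complex.I * (m * p.1)) * (p.2 : ℂ) ^ j := by fun_prop

/-- **uniqueness for (ii)**: two finite measures carried by `(-π,π] × [0,1]` with equal moments are equal -/
theorem gsp_box1_unique {μ ν : Measure (ℝ × ℝ)} [IsFiniteMeasure μ] [IsFiniteMeasure ν]
    (hμ : μ (Ioc (-Real.pi) Real.pi ×ˢ Icc (0 : ℝ) 1)ᶜ = 0) (hν : ν (Ioc (-Real.pi) Real.pi ×ˢ Icc (0 : ℝ) 1)ᶜ = 0)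
    (h : ∀ (m : ℤ) (j : ℕ), ∫ p, Complex.exp (Complex.I * (m * p.1)) * (p.2 : ℂ) ^ j ∂μ
      = ∫ p, Complex.exp (Complex.I * (m * p.1)) * (p.2 : ℂ) ^ j ∂ν) : μ = ν := by
  have hm : Measurable gspU1 := gspU1_continuous.measurable
  have hae : ∀ κ : Measure (ℝ × ℝ), κ (Ioc (-Real.pi) Real.pi ×ˢ Icc (0 : ℝ) 1)ᶜ = 0 →
      ∀ᵐ p ∂κ, p ∈ Ioc (-Real.pi) Real.pi ×ˢ Icc (0 : ℝ) 1 := fun κ hκ => mem_ae_iff.2 hκ
  have hmom : ∀ κ : Measure (ℝ × ℝ), κ (Ioc (-Real.pi) Real.pi ×ˢ Icc (0 : ℝ) 1)ᶜ = 0 → ∀ (n : Fin 1 → ℤ) (j : ℕ),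
      ∫ x, gspChi n x * gspLam (Fin 1) x ^ j ∂(κ.map gspU1)
        = ∫ p, Complex.exp (Complex.I * (n 0 * p.1)) * (p.2 : ℂ) ^ j ∂κ := by
    intro κ hκ n j
    show ∫ x, gspMon (n, j) x ∂(κ.map gspU1) = _
    rw [integral_map hm.aemeasurable (gspMon (n, j)).continuous.aestronglyMeasurable]
    exact integral_congr_ae ((hae κ hκ).mono fun p hp => gsp_mon_U1 n j hp.2)
  have h1 : μ.map gspU1 = ν.map gspU1 := by
    refine gsp_mom_unique fun n j => ?_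
    rw [hmom μ hμ, hmom ν hν]
    exact h _ _
  have h2 : ∀ κ : Measure (ℝ × ℝ), κ (Ioc (-Real.pi) Real.pi ×ˢ Icc (0 : ℝ) 1)ᶜ = 0 →
      (κ.map gspU1).map gspB1 = κ := by
    intro κ hκ
    rw [Measure.map_map gspB1_measurable hm]
    have : (gspB1 ∘ gspU1 : ℝ × ℝ → ℝ × ℝ) =ᵐ[κ] id := (hae κ hκ).mono fun p hp => gspB1_U1 hp
    rw [Measure.map_congr this, Measure.map_id]
  rw [← h2 μ hμ, ← h2 ν hν, h1]

/-- transport of a measure on `circle × [0,1]` to the box -/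
theorem gsp_box1_of_torus (μ : Measure (UnitAddTorus (Fin 1) × unitInterval)) [IsFiniteMeasure μ] :
    IsFiniteMeasure (μ.map gspB1) ∧ (μ.map gspB1) (Ioc (-Real.pi) Real.pi ×ˢ Icc (0 : ℝ) 1)ᶜ = 0 ∧
      ∀ (m : ℤ) (j : ℕ), ∫ p, Complex.exp (Complex.I * (m * p.1)) * (p.2 : ℂ) ^ j ∂(μ.map gspB1)
        = ∫ x, gspChi (fun _ => m) x * gspLam (Fin 1) x ^ j ∂μ := by
  refine ⟨Measure.isFiniteMeasure_map μ _, ?_, fun m j => ?_⟩
  · rw [Measure.map_apply gspB1_measurable (measurableSet_Ioc.prod measurableSet_Icc).compl]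
    have : gspB1 ⁻¹' (Ioc (-Real.pi) Real.pi ×ˢ Icc (0 : ℝ) 1)ᶜ = ∅ := by
      ext x
      simp only [mem_preimage, mem_compl_iff, mem_empty_iff_false, iff_false, not_not]
      exact gspB1_mem x
    rw [this, measure_empty]
  · rw [integral_map gspB1_measurable.aemeasurable (gsp_exp1_continuous m j).aestronglyMeasurable]
    refine integral_congr_ae (Eventually.of_forall fun x => ?_)
    exact (gsp_mon_B1 (fun _ => m) j x).symm

/-- **(ii) Bochner + Hausdorff on `ℤ × ℕ`, box form** -/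
theorem gsp_bh1 (φ : ℤ → ℕ → ℂ) (hsym : ∀ m j, φ (-m) j = conj (φ m j))
    (hP0 : ∀ (s : Finset (ℤ × ℕ)) (a : ℤ × ℕ → ℂ),
      0 ≤ (∑ p ∈ s, ∑ q ∈ s, conj (a p) * a q * φ (q.1 - p.1) (p.2 + q.2)).re)
    (hP1 : ∀ (s : Finset (ℤ × ℕ)) (a : ℤ × ℕ → ℂ),
      0 ≤ (∑ p ∈ s, ∑ q ∈ s, conj (a p) * a q * φ (q.1 - p.1) (p.2 + q.2 + 1)).re)
    {K : ℝ} (hB : ∀ j, ‖φ 0 j‖ ≤ K) :
    ∃ γ : Measure (ℝ × ℝ), IsFiniteMeasure γ ∧ γ (Ioc (-Real.pi) Real.pi ×ˢ Icc (0 : ℝ) 1)ᶜ = 0 ∧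
      ∀ (m : ℤ) (j : ℕ), ∫ p, Complex.exp (Complex.I * (m * p.1)) * (p.2 : ℂ) ^ j ∂γ = φ m j := by
  obtain ⟨μ₀, hfin, -, hμ₀⟩ := sp8_bh (ι := Fin 1) (fun n j => φ (n 0) j) (fun m j => hsym (m 0) j)
    (fun s a => gsp_pd_pull (fun p q : ℤ × ℕ => φ (q.1 - p.1) (p.2 + q.2)) hP0
      (fun p : (Fin 1 → ℤ) × ℕ => (p.1 0, p.2)) s a)
    (fun s a => gsp_pd_pull (fun p q : ℤ × ℕ => φ (q.1 - p.1) (p.2 + q.2 + 1)) hP1
      (fun p : (Fin 1 → ℤ) × ℕ => (p.1 0, p.2)) s a) hB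
  obtain ⟨h1, h2, h3⟩ := gsp_box1_of_torus μ₀
  refine ⟨_, h1, h2, fun m j => ?_⟩
  rw [h3, hμ₀]

end box1

section cov2

/-- the character `e^{i u·p}` of `ℤ²` in the box chart -/
noncomputable def gspE2 (u : ℤ × ℤ) (p : ℝ × ℝ) : ℂ := Complex.exp (Complex.I * (u.1 * p.1 + u.2 * p.2))

theorem gspE2_continuous (u : ℤ × ℤ) : Continuous (gspE2 u) := gsp_exp2_continuous u.1 u.2

theorem gspE2_add (u v : ℤ × ℤ) (p : ℝ × ℝ) : gspE2 (u + v) p = gspE2 u p * gspE2 v p := by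
  unfold gspE2
  rw [← Complex.exp_add]
  congr 1
  push_cast [Prod.fst_add, Prod.snd_add]
  ring

theorem gspE2_neg (u : ℤ × ℤ) (p : ℝ × ℝ) : gspE2 (-u) p = conj (gspE2 u p) := by
  unfold gspE2
  rw [← Complex.exp_conj]
  congr 1
  simp only [map_mul, map_add, Complex.conj_I, Complex.conj_ofReal, map_intCast, Prod.fst_neg, Prod.snd_neg]
  push_cast
  ring

theorem gspE2_norm (u : ℤ × ℤ) (p : ℝ × ℝ) : ‖gspE2 u p‖ = 1 := by
  unfold gspE2
  have : Complex.I * ((u.1 : ℂ) * p.1 + u.2 * p.2) = ((u.1 * p.1 + u.2 * p.2 : ℝ) : ℂ) * Complex.I := by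
    push_cast; ring
  rw [this, Complex.norm_exp_ofReal_mul_I]

theorem gspE2_integrable (μ : Measure (ℝ × ℝ)) [IsFiniteMeasure μ] (u : ℤ × ℤ) : Integrable (gspE2 u) μ :=
  (integrable_const (1 : ℝ)).mono' (gspE2_continuous u).aestronglyMeasurable
    (Eventually.of_forall fun p => (gspE2_norm u p).le)

/-- **the covariance rule, box form on `ℝ × ℝ`** -/
theorem gsp_cov_rule_box2 {μ ν : Measure (ℝ × ℝ)} [IsFiniteMeasure μ] [IsFiniteMeasure ν]
    (hμ : μ (Ioc (-Real.pi) Real.pi ×ˢ Ioc (-Real.pi) Real.pi)ᶜ = 0)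
    (hν : ν (Ioc (-Real.pi) Real.pi ×ˢ Ioc (-Real.pi) Real.pi)ᶜ = 0) (s : Finset (ℤ × ℤ)) (c : ℤ × ℤ → ℂ)
    (h : ∀ u : ℤ × ℤ, ∫ p, gspE2 u p ∂ν = ∑ k ∈ s, ∑ l ∈ s, conj (c k) * c l * ∫ p, gspE2 (u + l - k) p ∂μ) :
    ν = μ.withDensity (fun p => ENNReal.ofReal (‖∑ k ∈ s, c k * gspE2 k p‖ ^ 2)) := by
  set P : ℝ × ℝ → ℂ := fun p => ∑ k ∈ s, c k * gspE2 k p with hP
  have hPc : Continuous P := continuous_finsetSum _ fun k _ => continuous_const.mul (gspE2_continuous k)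
  have hPb : ∀ p, ‖P p‖ ≤ ∑ k ∈ s, ‖c k‖ := fun p =>
    (norm_sum_le _ _).trans (Finset.sum_le_sum fun k _ => by rw [norm_mul, gspE2_norm, mul_one])
  have hdm : Measurable fun p => ENNReal.ofReal (‖P p‖ ^ 2) :=
    ENNReal.measurable_ofReal.comp (by fun_prop : Continuous fun p => ‖P p‖ ^ 2).measurable
  have hint : Integrable (fun p => ‖P p‖ ^ 2) μ :=
    (integrable_const ((∑ k ∈ s, ‖c k‖) ^ 2)).mono' (by fun_prop : Continuous fun p => ‖P p‖ ^ 2).aestronglyMeasurable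
      (Eventually.of_forall fun p => by
        rw [Real.norm_eq_abs, abs_of_nonneg (by positivity)]
        exact pow_le_pow_left₀ (norm_nonneg _) (hPb p) 2)
  have hfin : IsFiniteMeasure (μ.withDensity fun p => ENNReal.ofReal (‖P p‖ ^ 2)) :=
    isFiniteMeasure_withDensity_ofReal hint.2
  refine gsp_box2_unique hν (withDensity_absolutelyContinuous μ _ hμ) fun m n => ?_
  have h0 := h (m, n)
  rw [show (∫ p, Complex.exp (Complex.I * (m * p.1 + n * p.2)) ∂ν) = ∫ p, gspE2 (m, n) p ∂ν from rfl, h0,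
    integral_withDensity_eq_integral_toReal_smul hdm (Eventually.of_forall fun y => ENNReal.ofReal_lt_top)]
  have h1 : ∀ p : ℝ × ℝ, (ENNReal.ofReal (‖P p‖ ^ 2)).toReal • Complex.exp (Complex.I * (m * p.1 + n * p.2))
      = ∑ k ∈ s, ∑ l ∈ s, conj (c k) * c l * gspE2 ((m, n) + l - k) p := by
    intro p
    rw [ENNReal.toReal_ofReal (by positivity), Complex.real_smul]
    have h2 : ((‖P p‖ ^ 2 : ℝ) : ℂ) = conj (P p) * P p := by
      rw [Complex.conj_mul']; push_cast; rfl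
    rw [h2, hP]
    show conj (∑ k ∈ s, c k * gspE2 k p) * (∑ k ∈ s, c k * gspE2 k p) * _ = _
    rw [map_sum, Finset.sum_mul_sum, Finset.sum_mul]
    refine Finset.sum_congr rfl fun k _ => ?_
    rw [Finset.sum_mul]
    refine Finset.sum_congr rfl fun l _ => ?_
    rw [sub_eq_add_neg, gspE2_add, gspE2_add, gspE2_neg, map_mul]
    show _ * gspE2 (m, n) p = _
    ring
  simp_rw [h1]
  rw [integral_finsetSum]
  · refine Finset.sum_congr rfl fun k _ => ?_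
    rw [integral_finsetSum]
    · exact Finset.sum_congr rfl fun l _ => (integral_const_mul _ _).symm
    · exact fun l _ => (gspE2_integrable μ _).const_mul _
  · exact fun k _ => integrable_finsetSum _ fun l _ => (gspE2_integrable μ _).const_mul _

end cov2

end Claimed.Agent.R291
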