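import Claimed.Agent.R291.Spec.Core
import Claimed.Agent.R269.Lib.CAMontel

set_option autoImplicit false

namespace Claimed.Agent.R291

open MeasureTheory Filter Topology Set
open scoped InnerProductSpace

/-! ## 1. the powers `λ ^ w`, `λ ∈ [0,1]`, `Re w > 0` -/

section cpow

theorem gsp_cpow_norm_le {l : ℝ} (h0 : 0 ≤ l) (h1 : l ≤ 1) {w : ℂ} (hw : 0 < w.re) : ‖(l : ℂ) ^ w‖ ≤ 1 := by
  rw [Complex.norm_cpow_eq_rpow_re_of_nonneg h0 hw.ne']
  exact Real.rpow_le_one h0 h1 hw.le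

theorem gsp_cpow_log_norm_le {l : ℝ} (h0 : 0 ≤ l) (h1 : l ≤ 1) {η : ℝ} (hη : 0 < η) {w : ℂ} (hw : η ≤ w.re) :
    ‖(l : ℂ) ^ w * Complex.log l‖ ≤ 1 / η := by
  have hw0 : 0 < w.re := hη.trans_le hw
  rcases h0.eq_or_lt with rfl | hl
  · simp [hη.le]
  rw [norm_mul, Complex.norm_cpow_eq_rpow_re_of_nonneg h0 hw0.ne', ← Complex.ofReal_log h0, Complex.norm_real,
    Real.norm_eq_abs, abs_of_nonpos (Real.log_nonpos h0 h1)]
  have h2 : l ^ w.re ≤ l ^ η := Real.rpow_le_rpow_of_exponent_ge hl h1 hw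
  have h3 : Real.log l⁻¹ ≤ l⁻¹ ^ η / η := Real.log_le_rpow_div (inv_nonneg.2 h0) hη
  rw [Real.log_inv] at h3
  have h4 : 0 ≤ -Real.log l := neg_nonneg.2 (Real.log_nonpos h0 h1)
  have h5 : 0 < l ^ η := Real.rpow_pos_of_pos hl η
  calc l ^ w.re * -Real.log l ≤ l ^ η * (l⁻¹ ^ η / η) := by gcongr
    _ = 1 / η := by
      rw [Real.inv_rpow h0]
      field_simp

theorem gsp_cpow_hasDerivAt (l : ℝ) {w : ℂ} (hw : w ≠ 0) :
    HasDerivAt (fun z : ℂ => (l : ℂ) ^ z) ((l : ℂ) ^ w * Complex.log l) w := by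
  have := (hasDerivAt_id w).const_cpow (c := (l : ℂ)) (Or.inr hw)
  simpa using this

end cpow

/-! ## 2. the analytic moments of a finite measure -/

section integral

variable {α : Type*} [MeasurableSpace α]

/-- `w ↦ ∫ h λ^w dμ` -/
noncomputable def gspF (μ : Measure α) (lam : α → ℝ) (h : α → ℂ) (w : ℂ) : ℂ := ∫ x, h x * (lam x : ℂ) ^ w ∂μ

theorem gspF_meas {μ : Measure α} {lam : α → ℝ} (hlam : Measurable lam) {h : α → ℂ} (hh : Integrable h μ) (w : ℂ) :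
    AEStronglyMeasurable (fun x => h x * (lam x : ℂ) ^ w) μ := by
  refine hh.aestronglyMeasurable.mul (Measurable.aestronglyMeasurable ?_)
  exact (Complex.measurable_ofReal.comp hlam).pow_const w

theorem gspF_integrable {μ : Measure α} {lam : α → ℝ} (hlam : Measurable lam) (h01 : ∀ x, lam x ∈ Icc (0 : ℝ) 1)
    {h : α → ℂ} (hh : Integrable h μ) {w : ℂ} (hw : 0 < w.re) : Integrable (fun x => h x * (lam x : ℂ) ^ w) μ := by
  refine hh.norm.mono' (gspF_meas hlam hh w) (Eventually.of_forall fun x => ?_)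
  rw [norm_mul]
  exact mul_le_of_le_one_right (norm_nonneg _) (gsp_cpow_norm_le (h01 x).1 (h01 x).2 hw)

theorem gspF_norm_le {μ : Measure α} {lam : α → ℝ} (h01 : ∀ x, lam x ∈ Icc (0 : ℝ) 1)
    {h : α → ℂ} (hh : Integrable h μ) {w : ℂ} (hw : 0 < w.re) : ‖gspF μ lam h w‖ ≤ ∫ x, ‖h x‖ ∂μ := by
  refine norm_integral_le_of_norm_le hh.norm (Eventually.of_forall fun x => ?_)
  rw [norm_mul]
  exact mul_le_of_le_one_right (norm_nonneg _) (gsp_cpow_norm_le (h01 x).1 (h01 x).2 hw)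

theorem gspF_nat (μ : Measure α) (lam : α → ℝ) (h : α → ℂ) (j : ℕ) :
    gspF μ lam h j = ∫ x, h x * (lam x : ℂ) ^ j ∂μ := by
  simp [gspF, Complex.cpow_natCast]

theorem gspF_differentiableOn {μ : Measure α} {lam : α → ℝ} (hlam : Measurable lam) (h01 : ∀ x, lam x ∈ Icc (0 : ℝ) 1)
    {h : α → ℂ} (hh : Integrable h μ) : DifferentiableOn ℂ (gspF μ lam h) {w | 0 < w.re} := by
  intro w hw
  have hw : 0 < w.re := hw
  set η := w.re / 2 with hη
  have hη0 : 0 < η := by positivity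
  have hs : Metric.ball w η ∈ 𝓝 w := Metric.ball_mem_nhds w hη0
  have hre : ∀ z ∈ Metric.ball w η, η ≤ z.re := by
    intro z hz
    have h1 : |(z - w).re| ≤ ‖z - w‖ := Complex.abs_re_le_norm _
    have h2 : ‖z - w‖ < η := by simpa [dist_eq_norm] using hz
    have h3 := abs_le.1 (h1.trans h2.le)
    rw [Complex.sub_re] at h3
    linarith [h3.1]
  have key := hasDerivAt_integral_of_dominated_loc_of_deriv_le (μ := μ) (𝕜 := ℂ)
    (F := fun z x => h x * (lam x : ℂ) ^ z) (F' := fun z x => h x * ((lam x : ℂ) ^ z * Complex.log (lam x)))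
    (x₀ := w) (s := Metric.ball w η) (bound := fun x => ‖h x‖ * (1 / η)) hs
    (Eventually.of_forall fun z => gspF_meas hlam hh z) (gspF_integrable hlam h01 hh hw)
    (by
      refine hh.aestronglyMeasurable.mul (Measurable.aestronglyMeasurable ?_)
      exact ((Complex.measurable_ofReal.comp hlam).pow_const w).mul
        (Complex.measurable_log.comp (Complex.measurable_ofReal.comp hlam)))
    (Eventually.of_forall fun x z hz => by
      rw [norm_mul]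
      exact mul_le_mul_of_nonneg_left (gsp_cpow_log_norm_le (h01 x).1 (h01 x).2 hη0 (hre z hz)) (norm_nonneg _))
    (hh.norm.mul_const _)
    (Eventually.of_forall fun x z hz => by
      have hz0 : z ≠ 0 := fun h0 => by
        have := hre z hz
        rw [h0, Complex.zero_re] at this
        linarith
      exact (gsp_cpow_hasDerivAt (lam x) hz0).const_mul (h x))
  exact key.2.differentiableAt.differentiableWithinAt

end integral

/-! ## 3. bounded analytic interpolation of a sequence -/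

/-- the sequence `M j`, `j ≥ 1`, is interpolated by a holomorphic function on `Re w > 0` bounded by `C` -/
def GspInterp (M : ℕ → ℂ) (C : ℝ) : Prop :=
  ∃ F : ℂ → ℂ, DifferentiableOn ℂ F {w | 0 < w.re} ∧ (∀ w : ℂ, 0 < w.re → ‖F w‖ ≤ C) ∧ ∀ j : ℕ, 1 ≤ j → F j = M j

theorem GspInterp.mono {M : ℕ → ℂ} {C C' : ℝ} (h : GspInterp M C) (hC : C ≤ C') : GspInterp M C' := by
  obtain ⟨F, h1, h2, h3⟩ := h
  exact ⟨F, h1, fun w hw => (h2 w hw).trans hC, h3⟩

theorem GspInterp.congr {M M' : ℕ → ℂ} {C : ℝ} (h : GspInterp M C) (hM : ∀ j, 1 ≤ j → M j = M' j) :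
    GspInterp M' C := by
  obtain ⟨F, h1, h2, h3⟩ := h
  exact ⟨F, h1, h2, fun j hj => (h3 j hj).trans (hM j hj)⟩

theorem GspInterp.add {M M' : ℕ → ℂ} {C C' : ℝ} (h : GspInterp M C) (h' : GspInterp M' C') :
    GspInterp (fun j => M j + M' j) (C + C') := by
  obtain ⟨F, h1, h2, h3⟩ := h
  obtain ⟨F', h1', h2', h3'⟩ := h'
  exact ⟨fun w => F w + F' w, h1.add h1', fun w hw => (norm_add_le _ _).trans (add_le_add (h2 w hw) (h2' w hw)),
    fun j hj => by show F j + F' j = _; rw [h3 j hj, h3' j hj]⟩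

theorem GspInterp.const_mul {M : ℕ → ℂ} {C : ℝ} (h : GspInterp M C) (c : ℂ) :
    GspInterp (fun j => c * M j) (‖c‖ * C) := by
  obtain ⟨F, h1, h2, h3⟩ := h
  exact ⟨fun w => c * F w, h1.const_mul c, fun w hw => by
    rw [norm_mul]; exact mul_le_mul_of_nonneg_left (h2 w hw) (norm_nonneg _), fun j hj => by show c * F j = _; rw [h3 j hj]⟩

/-- shifting the exponent -/
theorem GspInterp.shift {M : ℕ → ℂ} {C : ℝ} (h : GspInterp M C) (k : ℕ) : GspInterp (fun j => M (j + k)) C := by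
  obtain ⟨F, h1, h2, h3⟩ := h
  have hm : MapsTo (fun w : ℂ => w + k) {w | 0 < w.re} {w | 0 < w.re} := by
    intro w hw
    have hw : 0 < w.re := hw
    show 0 < (w + k).re
    rw [Complex.add_re, Complex.natCast_re]
    positivity
  refine ⟨fun w => F (w + k), ?_, fun w hw => h2 _ (hm hw), fun j hj => ?_⟩
  · exact h1.comp (differentiableOn_id.add_const _) hm
  · have := h3 (j + k) (by omega)
    show F ((j : ℂ) + k) = M (j + k)
    rw [← this]
    push_cast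
    rfl

/-- the moments of a finite measure (with an integrable complex weight) -/
theorem gsp_interp_measure {α : Type*} [MeasurableSpace α] {μ : Measure α} {lam : α → ℝ} (hlam : Measurable lam)
    (h01 : ∀ x, lam x ∈ Icc (0 : ℝ) 1) {h : α → ℂ} (hh : Integrable h μ) :
    GspInterp (fun j => ∫ x, h x * (lam x : ℂ) ^ j ∂μ) (∫ x, ‖h x‖ ∂μ) :=
  ⟨gspF μ lam h, gspF_differentiableOn hlam h01 hh, fun _ hw => gspF_norm_le h01 hh hw, fun j _ => gspF_nat μ lam h j⟩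

/-! ## 4. Corollary 8.3: matrix elements of a positive contraction -/

section hilbert

variable {H : Type*} [NormedAddCommGroup H] [InnerProductSpace ℂ H] [CompleteSpace H]

/-- the function `λ ^ w` on the model space -/
noncomputable def gspPow (ι : Type*) {w : ℂ} (hw : 0 < w.re) : C(UnitAddTorus ι × unitInterval, ℂ) :=
  ⟨fun p => ((p.2 : ℝ) : ℂ) ^ w, (Complex.continuous_ofReal_cpow_const hw).comp (by fun_prop)⟩

theorem gspPow_norm_le (ι : Type*) {w : ℂ} (hw : 0 < w.re) : ‖gspPow ι hw‖ ≤ 1 :=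
  (ContinuousMap.norm_le _ zero_le_one).2 fun p => gsp_cpow_norm_le p.2.2.1 p.2.2.2 hw

theorem gspPow_nat (ι : Type*) {j : ℕ} (hj : 0 < ((j : ℕ) : ℂ).re) : gspPow ι hj = gspLam ι ^ j := by
  ext p
  simp [gspPow, gspLam, Complex.cpow_natCast]

/-- holomorphy of `w ↦ ⟪a, Ψ (g λ^w) a⟫` -/
theorem gsp_calc_pow_diag {ι : Type*} [Fintype ι] (Ψ : C(UnitAddTorus ι × unitInterval, ℂ) →⋆ₐ[ℂ] (H →L[ℂ] H))
    (g : C(UnitAddTorus ι × unitInterval, ℂ)) (a : H) :
    ∃ F : ℂ → ℂ, DifferentiableOn ℂ F {w | 0 < w.re} ∧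
      ∀ (w : ℂ) (hw : 0 < w.re), F w = ⟪a, Ψ (g * gspPow ι hw) a⟫_ℂ := by
  obtain ⟨μ, hfin, -, hμ⟩ := gsp_calc_measure Ψ a
  refine ⟨gspF μ (fun p => (p.2 : ℝ)) g, gspF_differentiableOn (by fun_prop) (fun p => p.2.2) ?_, fun w hw => ?_⟩
  · exact g.continuous.integrable_of_hasCompactSupport (HasCompactSupport.of_compactSpace _)
  · rw [hμ]
    rfl

omit [CompleteSpace H] in
/-- polarization -/
theorem gsp_polar (A : H →L[ℂ] H) (x y : H) :
    ⟪x, A y⟫_ℂ = (⟪x + y, A (x + y)⟫_ℂ - ⟪x - y, A (x - y)⟫_ℂ - Complex.I * ⟪x + Complex.I • y, A (x + Complex.I • y)⟫_ℂ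
      + Complex.I * ⟪x - Complex.I • y, A (x - Complex.I • y)⟫_ℂ) / 4 := by
  simp only [map_add, map_sub, inner_add_left, inner_add_right, map_smul, inner_smul_left,
    inner_smul_right, Complex.conj_I, ← pow_two, Complex.I_sq, inner_sub_left, inner_sub_right,
    mul_add, ← mul_assoc, mul_neg, neg_neg, one_mul, neg_one_mul, mul_sub, sub_sub]
  ring

/-- holomorphy of `w ↦ ⟪a, Ψ (g λ^w) b⟫` -/
theorem gsp_calc_pow {ι : Type*} [Fintype ι] (Ψ : C(UnitAddTorus ι × unitInterval, ℂ) →⋆ₐ[ℂ] (H →L[ℂ] H))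
    (g : C(UnitAddTorus ι × unitInterval, ℂ)) (a b : H) :
    ∃ F : ℂ → ℂ, DifferentiableOn ℂ F {w | 0 < w.re} ∧
      ∀ (w : ℂ) (hw : 0 < w.re), F w = ⟪a, Ψ (g * gspPow ι hw) b⟫_ℂ := by
  obtain ⟨F1, d1, e1⟩ := gsp_calc_pow_diag Ψ g (a + b)
  obtain ⟨F2, d2, e2⟩ := gsp_calc_pow_diag Ψ g (a - b)
  obtain ⟨F3, d3, e3⟩ := gsp_calc_pow_diag Ψ g (a + Complex.I • b)
  obtain ⟨F4, d4, e4⟩ := gsp_calc_pow_diag Ψ g (a - Complex.I • b)
  refine ⟨fun w => (F1 w - F2 w - Complex.I * F3 w + Complex.I * F4 w) / 4, ?_, fun w hw => ?_⟩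
  · exact (((d1.sub d2).sub (d3.const_mul _)).add (d4.const_mul _)).div_const _
  · show (F1 w - F2 w - Complex.I * F3 w + Complex.I * F4 w) / 4 = _
    rw [e1 w hw, e2 w hw, e3 w hw, e4 w hw]
    exact (gsp_polar (Ψ (g * gspPow ι hw)) a b).symm

theorem gspChi_norm_le {ι : Type*} [Fintype ι] (n : ι → ℤ) : ‖gspChi n‖ ≤ 1 := by
  refine (ContinuousMap.norm_le _ zero_le_one).2 fun p => ?_
  calc ‖gspChi n p‖ = ‖UnitAddTorus.mFourier n p.1‖ := rfl
    _ ≤ ‖UnitAddTorus.mFourier n‖ := ContinuousMap.norm_coe_le_norm _ _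
    _ = 1 := UnitAddTorus.mFourier_norm

/-- **Lemma 8.2 + Corollary 8.3**: the matrix elements `⟪a, T n S^j b⟫` have a bounded analytic interpolation in `j` -/
theorem gsp_interp_rep {ι : Type*} [Fintype ι] {T : (ι → ℤ) → H →L[ℂ] H} (hT : GspRep T) {S : H →L[ℂ] H}
    (hS : S.IsPositive) (hS1 : ‖S‖ ≤ 1) (hTS : ∀ n, T n * S = S * T n) (n : ι → ℤ) (a b : H) :
    GspInterp (fun j => ⟪a, T n ((S ^ j) b)⟫_ℂ) (‖a‖ * ‖b‖) := by
  obtain ⟨Ψ, hΨT, hΨS⟩ := gsp_joint hT hS hS1 hTS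
  obtain ⟨F, hd, hF⟩ := gsp_calc_pow Ψ (gspChi n) a b
  refine ⟨F, hd, fun w hw => ?_, fun j hj => ?_⟩
  · rw [hF w hw]
    refine (gsp_calc_inner_le Ψ a b _).trans ?_
    refine mul_le_of_le_one_left (by positivity) ?_
    calc ‖gspChi n * gspPow ι hw‖ ≤ ‖gspChi n‖ * ‖gspPow ι hw‖ := norm_mul_le _ _
      _ ≤ 1 * 1 := mul_le_mul (gspChi_norm_le n) (gspPow_norm_le ι hw) (norm_nonneg _) zero_le_one
      _ = 1 := one_mul 1
  · have hj' : 0 < ((j : ℕ) : ℂ).re := by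
      rw [Complex.natCast_re]
      exact_mod_cast hj
    rw [hF j hj', gspPow_nat, map_mul, map_pow, hΨT, hΨS]
    rfl

/-- **Corollary 8.3** -/
theorem gsp_interp {S : H →L[ℂ] H} (hS : S.IsPositive) (hS1 : ‖S‖ ≤ 1) (a b : H) :
    GspInterp (fun j => ⟪a, (S ^ j) b⟫_ℂ) (‖a‖ * ‖b‖) :=
  gsp_interp_rep (ι := Fin 0) (T := fun _ => 1) ⟨rfl, fun _ _ => (one_mul 1).symm, fun _ => star_one _⟩ hS hS1
    (fun _ => by rw [one_mul, mul_one]) 0 a b

end hilbert

/-! ## 5. the abstract analytic translation lemma (core of Lemma 5.7) -/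

section translation

/-- **Analytic translation.**  `M n j` are sequences with bounded analytic interpolations (uniform bound `C`), the steps
`b n → 0+`, the backoffs `N n * b n → η > 0`.  If for every `s` in a nonempty interval there is a rounding
`m n * b n → s` along which `M n (m n + N n) → 0`, then `M n (N n) → 0`. -/
theorem gsp_AT {M : ℕ → ℕ → ℂ} {C : ℝ} (hM : ∀ n, GspInterp (M n) C) {b : ℕ → ℝ} (hb : ∀ n, 0 < b n)
    {N : ℕ → ℕ} (hN : ∀ n, 1 ≤ N n) {η : ℝ} (hη : 0 < η) (hNb : Tendsto (fun n => (N n : ℝ) * b n) atTop (𝓝 η))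
    {s₁ s₂ : ℝ} (h0 : 0 ≤ s₁) (h12 : s₁ < s₂)
    (hI : ∀ s ∈ Ioo s₁ s₂, ∃ m : ℕ → ℕ, Tendsto (fun n => (m n : ℝ) * b n) atTop (𝓝 s) ∧
      Tendsto (fun n => M n (m n + N n)) atTop (𝓝 0)) :
    Tendsto (fun n => M n (N n)) atTop (𝓝 0) := by
  choose F hFd hFb hFM using hM
  -- the rescaled functions
  set f : ℕ → ℂ → ℂ := fun n z => F n ((z + ((N n : ℝ) * b n : ℝ)) / (b n : ℝ)) with hf
  set U : Set ℂ := {z | -η < z.re} with hU
  have hUo : IsOpen U := isOpen_lt continuous_const Complex.continuous_re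
  have hUc : IsPreconnected U := (convex_halfSpace_re_gt (-η)).isPreconnected
  have harg : ∀ n (z : ℂ), ((z + ((N n : ℝ) * b n : ℝ)) / (b n : ℝ)).re = (z.re + (N n : ℝ) * b n) / b n := by
    intro n z
    rw [Complex.div_ofReal_re, Complex.add_re, Complex.ofReal_re]
  have hval : ∀ n (m : ℕ), f n (((m : ℝ) * b n : ℝ) : ℂ) = M n (m + N n) := by
    intro n m
    have h1 : ((((m : ℝ) * b n : ℝ) : ℂ) + ((N n : ℝ) * b n : ℝ)) / (b n : ℝ) = ((m + N n : ℕ) : ℂ) := by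
      have : ((b n : ℝ) : ℂ) ≠ 0 := Complex.ofReal_ne_zero.2 (hb n).ne'
      push_cast
      field_simp
    show F n _ = _
    rw [h1]
    exact hFM n _ (by have := hN n; omega)
  refine tendsto_of_subseq_tendsto fun ns hns => ?_
  -- Montel along the subsequence
  obtain ⟨φ, G, hφ, hG, hlu⟩ := Claimed.Agent.R269.ca_montel_exhaust U hUo (fun k => f (ns k)) (by
    intro z hz
    have hz : -η < z.re := hz
    set r := (z.re + η) / 2 with hr
    have hr0 : 0 < r := by rw [hr]; linarith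
    have hev : ∀ᶠ k in atTop, η - r / 2 < (N (ns k) : ℝ) * b (ns k) :=
      (hNb.comp hns).eventually (lt_mem_nhds (by linarith))
    refine ⟨r / 2, by positivity, C, hev.mono fun k hk => ?_⟩
    have hmaps : ∀ w ∈ Metric.ball z (r / 2),
        0 < ((w + ((N (ns k) : ℝ) * b (ns k) : ℝ)) / (b (ns k) : ℝ)).re := by
      intro w hw
      rw [harg]
      have h1 : |(w - z).re| ≤ ‖w - z‖ := Complex.abs_re_le_norm _
      have h2 : ‖w - z‖ < r / 2 := by simpa [dist_eq_norm] using hw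
      have h3 := abs_le.1 (h1.trans h2.le)
      rw [Complex.sub_re] at h3
      have h4 : 0 < w.re + (N (ns k) : ℝ) * b (ns k) := by
        have := h3.1
        rw [hr] at this hk
        linarith
      exact div_pos h4 (hb _)
    refine ⟨?_, fun w hw => hFb _ _ (hmaps w hw)⟩
    exact (hFd (ns k)).comp ((differentiableOn_id.add_const _).div_const _) hmaps)
  refine ⟨φ, ?_⟩
  have hsub : Tendsto (fun k => ns (φ k)) atTop atTop := hns.comp hφ.tendsto_atTop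
  have hGc : ContinuousOn G U := hG.continuousOn
  -- `G` vanishes on the interval
  have hG0 : ∀ s ∈ Ioo s₁ s₂, G (s : ℂ) = 0 := by
    intro s hs
    obtain ⟨m, hm1, hm2⟩ := hI s hs
    have hsU : (s : ℂ) ∈ U := by
      show -η < (s : ℂ).re
      rw [Complex.ofReal_re]
      linarith [hs.1]
    have h1 : Tendsto (fun k => (((m (ns (φ k)) : ℝ) * b (ns (φ k)) : ℝ) : ℂ)) atTop (𝓝[U] (s : ℂ)) := by
      rw [hUo.nhdsWithin_eq hsU]
      exact (Complex.continuous_ofReal.tendsto s).comp (hm1.comp hsub)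
    have h2 := hlu.tendsto_comp (hGc _ hsU) hsU h1
    have h3 : Tendsto (fun k => M (ns (φ k)) (m (ns (φ k)) + N (ns (φ k)))) atTop (𝓝 (G s)) := by
      refine h2.congr fun k => ?_
      exact hval _ _
    exact tendsto_nhds_unique h3 (hm2.comp hsub)
  -- identity theorem
  have hGa : AnalyticOnNhd ℂ G U := hG.analyticOnNhd hUo
  set s₀ := (s₁ + s₂) / 2 with hs₀
  have hs₀m : s₀ ∈ Ioo s₁ s₂ := ⟨by rw [hs₀]; linarith, by rw [hs₀]; linarith⟩
  have hs₀U : (s₀ : ℂ) ∈ U := by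
    show -η < (s₀ : ℂ).re
    rw [Complex.ofReal_re]
    linarith [hs₀m.1]
  have hfreq : ∃ᶠ z in 𝓝[≠] (s₀ : ℂ), G z = 0 := by
    have ht : Tendsto (fun t : ℝ => (t : ℂ)) (𝓝[≠] s₀) (𝓝[≠] (s₀ : ℂ)) := by
      refine tendsto_nhdsWithin_of_tendsto_nhds_of_eventually_within _
        ((Complex.continuous_ofReal.tendsto s₀).mono_left nhdsWithin_le_nhds) ?_
      filter_upwards [self_mem_nhdsWithin] with t ht
      exact fun h => ht (Complex.ofReal_injective h)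
    refine ht.frequently (Eventually.frequently ?_)
    filter_upwards [mem_nhdsWithin_of_mem_nhds (Ioo_mem_nhds hs₀m.1 hs₀m.2)] with t ht
    exact hG0 t ht
  have hzero : EqOn G 0 U := hGa.eqOn_zero_of_preconnected_of_frequently_eq_zero hUc hs₀U hfreq
  have h0U : (0 : ℂ) ∈ U := by
    show -η < (0 : ℂ).re
    rw [Complex.zero_re]
    linarith
  have h4 := hlu.tendsto_at h0U
  rw [hzero h0U] at h4
  refine h4.congr fun k => ?_
  have := hval (ns (φ k)) 0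
  simpa using this

/-- the canonical lattice rounding -/
theorem gsp_round {b : ℕ → ℝ} (hb : ∀ n, 0 < b n) (hb0 : Tendsto b atTop (𝓝 0)) {s : ℝ} (hs : 0 ≤ s) :
    Tendsto (fun n => (⌊s / b n⌋₊ : ℝ) * b n) atTop (𝓝 s) := by
  have h1 : Tendsto (fun n => s - b n) atTop (𝓝 s) := by
    simpa using (tendsto_const_nhds (x := s)).sub hb0
  refine tendsto_of_tendsto_of_tendsto_of_le_of_le h1 tendsto_const_nhds (fun n => ?_) (fun n => ?_)
  · have h2 : s / b n < ⌊s / b n⌋₊ + 1 := Nat.lt_floor_add_one _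
    rw [div_lt_iff₀ (hb n)] at h2
    show s - b n ≤ _
    nlinarith
  · have h2 : (⌊s / b n⌋₊ : ℝ) ≤ s / b n := Nat.floor_le (div_nonneg hs (hb n).le)
    rwa [le_div_iff₀ (hb n)] at h2

/-- `gsp_AT` in the form of the paper: the hypothesis is made for every lattice rounding -/
theorem gsp_AT' {M : ℕ → ℕ → ℂ} {C : ℝ} (hM : ∀ n, GspInterp (M n) C) {b : ℕ → ℝ} (hb : ∀ n, 0 < b n)
    (hb0 : Tendsto b atTop (𝓝 0))
    {N : ℕ → ℕ} (hN : ∀ n, 1 ≤ N n) {η : ℝ} (hη : 0 < η) (hNb : Tendsto (fun n => (N n : ℝ) * b n) atTop (𝓝 η))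
    {s₁ s₂ : ℝ} (h0 : 0 ≤ s₁) (h12 : s₁ < s₂)
    (hI : ∀ s ∈ Ioo s₁ s₂, ∀ m : ℕ → ℕ, Tendsto (fun n => (m n : ℝ) * b n) atTop (𝓝 s) →
      Tendsto (fun n => M n (m n + N n)) atTop (𝓝 0)) :
    Tendsto (fun n => M n (N n)) atTop (𝓝 0) :=
  gsp_AT hM hb hN hη hNb h0 h12 fun s hs =>
    ⟨_, gsp_round hb hb0 (h0.trans hs.1.le), hI s hs _ (gsp_round hb hb0 (h0.trans hs.1.le))⟩

/-- **Analytic translation**, operator form: a sequence of Hilbert spaces, positive contractions and bounded vectors -/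
theorem gsp_AT_hilbert {H : ℕ → Type*} [∀ n, NormedAddCommGroup (H n)] [∀ n, InnerProductSpace ℂ (H n)]
    [∀ n, CompleteSpace (H n)] {S : ∀ n, H n →L[ℂ] H n} (hS : ∀ n, (S n).IsPositive) (hS1 : ∀ n, ‖S n‖ ≤ 1)
    {A B : ∀ n, H n} {C : ℝ} (hA : ∀ n, ‖A n‖ ≤ C) (hB : ∀ n, ‖B n‖ ≤ C)
    {b : ℕ → ℝ} (hb : ∀ n, 0 < b n)
    {N : ℕ → ℕ} (hN : ∀ n, 1 ≤ N n) {η : ℝ} (hη : 0 < η) (hNb : Tendsto (fun n => (N n : ℝ) * b n) atTop (𝓝 η))
    {s₁ s₂ : ℝ} (h0 : 0 ≤ s₁) (h12 : s₁ < s₂)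
    (hI : ∀ s ∈ Ioo s₁ s₂, ∃ m : ℕ → ℕ, Tendsto (fun n => (m n : ℝ) * b n) atTop (𝓝 s) ∧
      Tendsto (fun n => ⟪A n, (S n ^ (m n + N n)) (B n)⟫_ℂ) atTop (𝓝 0)) :
    Tendsto (fun n => ⟪A n, (S n ^ N n) (B n)⟫_ℂ) atTop (𝓝 0) :=
  gsp_AT (M := fun n j => ⟪A n, (S n ^ j) (B n)⟫_ℂ) (C := C * C)
    (fun n => (gsp_interp (hS n) (hS1 n) (A n) (B n)).mono
      (mul_le_mul (hA n) (hB n) (norm_nonneg _) ((norm_nonneg _).trans (hA n)))) hb hN hη hNb h0 h12 hI

end translation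

end Claimed.Agent.R291
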