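import Claimed.Agent.R291.Spec.Form

set_option autoImplicit false

namespace Claimed.Agent.R291

open MeasureTheory Filter Topology Set
open scoped InnerProductSpace ComplexConjugate

/-! ## 1. finite measures on a compact space are determined by a total set of continuous functions -/

section ext

variable {Y : Type*} [TopologicalSpace Y] [CompactSpace Y] [MeasurableSpace Y] [BorelSpace Y]

theorem gsp_integrable (μ : Measure Y) [IsFiniteMeasure μ] (g : C(Y, ℂ)) : Integrable (fun y => g y) μ :=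
  g.continuous.integrable_of_hasCompactSupport (HasCompactSupport.of_compactSpace _)

/-- the integral, as a continuous linear functional on `C(Y, ℂ)` -/
noncomputable def gspInt (μ : Measure Y) [IsFiniteMeasure μ] : C(Y, ℂ) →L[ℂ] ℂ :=
  LinearMap.mkContinuous
    { toFun := fun g => ∫ y, g y ∂μ
      map_add' := fun f g => integral_add (gsp_integrable μ f) (gsp_integrable μ g)
      map_smul' := fun c g => integral_const_mul c _ } (μ.real univ) (fun g => by
        have := norm_integral_le_of_norm_le_const (μ := μ) (f := fun y => g y) (C := ‖g‖)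
          (Eventually.of_forall fun y => g.norm_coe_le_norm y)
        rw [mul_comm]
        exact this)

@[simp] theorem gspInt_apply (μ : Measure Y) [IsFiniteMeasure μ] (g : C(Y, ℂ)) : gspInt μ g = ∫ y, g y ∂μ := rfl

/-- two finite measures which agree on a total set of continuous functions are equal -/
theorem gsp_meas_ext [HasOuterApproxClosed Y] {μ ν : Measure Y} [IsFiniteMeasure μ] [IsFiniteMeasure ν]
    {s : Set C(Y, ℂ)} (hs : (Submodule.span ℂ s).topologicalClosure = ⊤)
    (h : ∀ g ∈ s, ∫ y, g y ∂μ = ∫ y, g y ∂ν) : μ = ν := by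
  have hd : Dense (Submodule.span ℂ s : Set C(Y, ℂ)) := by
    rw [← Submodule.dense_iff_topologicalClosure_eq_top] at hs
    exact hs
  have h1 : gspInt μ = gspInt ν := ContinuousLinearMap.ext_on hd fun g hg => h g hg
  refine ext_of_forall_integral_eq_of_IsFiniteMeasure fun f => ?_
  have h2 := congrArg (fun L : C(Y, ℂ) →L[ℂ] ℂ => L (gspC f.toContinuousMap)) h1
  simp only [gspInt_apply, gspC_apply] at h2
  have h3 : ∀ κ : Measure Y, ∫ y, ((f.toContinuousMap y : ℝ) : ℂ) ∂κ = ((∫ y, f y ∂κ : ℝ) : ℂ) := fun κ =>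
    integral_complex_ofReal
  rw [h3, h3] at h2
  exact_mod_cast h2

end ext

/-! ## 2. the monomials `e^{2π i n·θ} λ^j` -/

section monomials

variable {ι : Type*} [Fintype ι]

theorem gspChi_zero : gspChi (0 : ι → ℤ) = 1 := by
  ext p
  simp [gspChi, UnitAddTorus.mFourier_zero]

theorem gspChi_add (m n : ι → ℤ) : gspChi (m + n) = gspChi m * gspChi n := by
  ext p
  simp [gspChi, UnitAddTorus.mFourier_add]

theorem gspChi_neg (n : ι → ℤ) : gspChi (-n) = star (gspChi n) := by
  ext p
  simp [gspChi, UnitAddTorus.mFourier_neg]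

omit [Fintype ι] in
theorem gspLam_star : star (gspLam ι) = gspLam ι := by
  ext p
  simp [gspLam]

/-- the monomials -/
noncomputable def gspMon (q : (ι → ℤ) × ℕ) : C(UnitAddTorus ι × unitInterval, ℂ) := gspChi q.1 * gspLam ι ^ q.2

theorem gspMon_apply (q : (ι → ℤ) × ℕ) (p : UnitAddTorus ι × unitInterval) :
    gspMon q p = gspChi q.1 p * gspLam ι p ^ q.2 := rfl

theorem gspMon_mul (q r : (ι → ℤ) × ℕ) : gspMon q * gspMon r = gspMon (q + r) := by
  simp only [gspMon, Prod.fst_add, Prod.snd_add, gspChi_add, pow_add]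
  ring

theorem gspMon_star (q : (ι → ℤ) × ℕ) : star (gspMon q) = gspMon (-q.1, q.2) := by
  simp only [gspMon, star_mul', star_pow, gspLam_star, gspChi_neg]

theorem gspMon_zero : gspMon (0 : (ι → ℤ) × ℕ) = 1 := by
  simp [gspMon, gspChi_zero]

/-- the star subalgebra generated by the monomials -/
noncomputable def gspMonAlg (ι : Type*) [Fintype ι] : StarSubalgebra ℂ C(UnitAddTorus ι × unitInterval, ℂ) where
  toSubalgebra := Algebra.adjoin ℂ (range gspMon)
  star_mem' := by
    change Algebra.adjoin ℂ (range gspMon) ≤ star (Algebra.adjoin ℂ (range gspMon))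
    refine Algebra.adjoin_le ?_
    rintro _ ⟨q, rfl⟩
    refine Algebra.subset_adjoin ⟨(-q.1, q.2), ?_⟩
    rw [gspMon_star]

theorem gspMonAlg_coe : (gspMonAlg ι).toSubalgebra.toSubmodule = Submodule.span ℂ (range gspMon) := by
  apply Algebra.adjoin_eq_span_of_subset
  refine .trans (fun x => Submonoid.closure_induction (fun _ => id) ⟨0, gspMon_zero⟩ ?_) Submodule.subset_span
  rintro _ _ _ _ ⟨m, rfl⟩ ⟨n, rfl⟩
  exact ⟨m + n, (gspMon_mul m n).symm⟩

theorem gspMonAlg_separatesPoints : (gspMonAlg ι).SeparatesPoints := by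
  classical
  intro x y hxy
  by_cases h1 : x.1 = y.1
  · have h2 : x.2 ≠ y.2 := fun h2 => hxy (Prod.ext h1 h2)
    refine ⟨_, ⟨gspMon (0, 1), Algebra.subset_adjoin ⟨(0, 1), rfl⟩, rfl⟩, ?_⟩
    simp only [gspMon_apply, gspChi_zero, pow_one, ContinuousMap.one_apply, one_mul]
    intro h
    exact h2 (Subtype.ext (Complex.ofReal_injective h))
  · rw [funext_iff, not_forall] at h1
    obtain ⟨i, hi⟩ := h1
    refine ⟨_, ⟨gspMon (Pi.single i 1, 0), Algebra.subset_adjoin ⟨(Pi.single i 1, 0), rfl⟩, rfl⟩, ?_⟩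
    simp only [gspMon_apply, pow_zero, mul_one]
    show UnitAddTorus.mFourier (Pi.single i 1) x.1 ≠ UnitAddTorus.mFourier (Pi.single i 1) y.1
    rw [UnitAddTorus.mFourier_single, UnitAddTorus.mFourier_single, fourier_one, fourier_one]
    intro h
    exact hi (AddCircle.injective_toCircle one_ne_zero (Circle.coe_injective h))

/-- the span of the monomials is dense (Stone--Weierstrass) -/
theorem gspMon_span_dense : (Submodule.span ℂ (range (gspMon (ι := ι)))).topologicalClosure = ⊤ := by
  rw [← gspMonAlg_coe]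
  exact congr_arg (Subalgebra.toSubmodule <| StarSubalgebra.toSubalgebra ·)
    (ContinuousMap.starSubalgebra_topologicalClosure_eq_top_of_separatesPoints _ (gspMonAlg_separatesPoints (ι := ι)))

/-- **uniqueness in Lemma 8.2**: a finite measure on `torus × [0,1]` is determined by its moments -/
theorem gsp_mom_unique {μ ν : Measure (UnitAddTorus ι × unitInterval)} [IsFiniteMeasure μ] [IsFiniteMeasure ν]
    (h : ∀ (n : ι → ℤ) (j : ℕ), ∫ p, gspChi n p * gspLam ι p ^ j ∂μ = ∫ p, gspChi n p * gspLam ι p ^ j ∂ν) :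
    μ = ν := by
  refine gsp_meas_ext gspMon_span_dense ?_
  rintro _ ⟨q, rfl⟩
  exact h q.1 q.2

/-- **uniqueness in Lemma 8.1**: a finite measure on the torus is determined by its Fourier coefficients -/
theorem gsp_torus_unique {μ ν : Measure (UnitAddTorus ι)} [IsFiniteMeasure μ] [IsFiniteMeasure ν]
    (h : ∀ n : ι → ℤ, ∫ x, UnitAddTorus.mFourier n x ∂μ = ∫ x, UnitAddTorus.mFourier n x ∂ν) : μ = ν := by
  refine gsp_meas_ext UnitAddTorus.span_mFourier_closure_eq_top ?_
  rintro _ ⟨n, rfl⟩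
  exact h n

end monomials

/-! ## 3. the covariance rule `μ_{P(V) a} = |P|² μ_a` -/

section density

variable {Y : Type*} [TopologicalSpace Y] [CompactSpace Y] [MeasurableSpace Y] [BorelSpace Y]

/-- the density `|P|²` -/
noncomputable def gspDens (P : C(Y, ℂ)) (y : Y) : ENNReal := ENNReal.ofReal (‖P y‖ ^ 2)

omit [CompactSpace Y] in
theorem gspDens_measurable (P : C(Y, ℂ)) : Measurable (gspDens P) :=
  ENNReal.measurable_ofReal.comp (by fun_prop : Continuous fun y => ‖P y‖ ^ 2).measurable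

omit [CompactSpace Y] in
theorem gsp_withDensity_integral (μ : Measure Y) (P : C(Y, ℂ)) (g : Y → ℂ) :
    ∫ y, g y ∂(μ.withDensity (gspDens P)) = ∫ y, g y * (conj (P y) * P y) ∂μ := by
  rw [integral_withDensity_eq_integral_toReal_smul (gspDens_measurable P)
    (Eventually.of_forall fun y => ENNReal.ofReal_lt_top)]
  refine integral_congr_ae (Eventually.of_forall fun y => ?_)
  show (ENNReal.ofReal (‖P y‖ ^ 2)).toReal • g y = g y * (conj (P y) * P y)
  rw [ENNReal.toReal_ofReal (by positivity), Complex.conj_mul', Complex.real_smul, mul_comm]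
  push_cast
  rfl

theorem gsp_withDensity_finite (μ : Measure Y) [IsFiniteMeasure μ] (P : C(Y, ℂ)) :
    IsFiniteMeasure (μ.withDensity (gspDens P)) := by
  refine isFiniteMeasure_withDensity_ofReal ?_
  have : Integrable (fun y => ‖P y‖ ^ 2) μ :=
    (by fun_prop : Continuous fun y => ‖P y‖ ^ 2).integrable_of_hasCompactSupport (HasCompactSupport.of_compactSpace _)
  exact this.2

end density

section covariance

variable {ι : Type*} [Fintype ι]

/-- expansion of `χ_n |Σ c_k χ_k|²` -/
theorem gspChi_mul_normSq (s : Finset (ι → ℤ)) (c : (ι → ℤ) → ℂ) (n : ι → ℤ) (p : UnitAddTorus ι × unitInterval) :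
    gspChi n p * (conj (∑ k ∈ s, c k * gspChi k p) * ∑ k ∈ s, c k * gspChi k p)
      = ∑ k ∈ s, ∑ l ∈ s, conj (c k) * c l * gspChi (n + l - k) p := by
  rw [map_sum, Finset.sum_mul_sum, Finset.mul_sum]
  refine Finset.sum_congr rfl fun k _ => ?_
  rw [Finset.mul_sum]
  refine Finset.sum_congr rfl fun l _ => ?_
  have h1 : gspChi (n + l - k) p = gspChi n p * gspChi l p * conj (gspChi k p) := by
    rw [sub_eq_add_neg, gspChi_add, gspChi_add, gspChi_neg]
    rfl
  rw [h1, map_mul]
  ring

/-- **the covariance rule on `torus × [0,1]`** (moment form) -/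
theorem gsp_cov_rule {μ ν : Measure (UnitAddTorus ι × unitInterval)} [IsFiniteMeasure μ] [IsFiniteMeasure ν]
    (s : Finset (ι → ℤ)) (c : (ι → ℤ) → ℂ)
    (h : ∀ (n : ι → ℤ) (j : ℕ), ∫ p, gspChi n p * gspLam ι p ^ j ∂ν
      = ∑ k ∈ s, ∑ l ∈ s, conj (c k) * c l * ∫ p, gspChi (n + l - k) p * gspLam ι p ^ j ∂μ) :
    ν = μ.withDensity (gspDens (∑ k ∈ s, c k • gspChi k)) := by
  have := gsp_withDensity_finite μ (∑ k ∈ s, c k • gspChi k)
  refine gsp_mom_unique fun n j => ?_
  rw [h, gsp_withDensity_integral]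
  have h1 : ∀ p, gspChi n p * gspLam ι p ^ j * (conj ((∑ k ∈ s, c k • gspChi k : C(UnitAddTorus ι × unitInterval, ℂ)) p)
      * (∑ k ∈ s, c k • gspChi k : C(UnitAddTorus ι × unitInterval, ℂ)) p)
      = ∑ k ∈ s, ∑ l ∈ s, conj (c k) * c l * (gspChi (n + l - k) p * gspLam ι p ^ j) := by
    intro p
    have h2 : (∑ k ∈ s, c k • gspChi k : C(UnitAddTorus ι × unitInterval, ℂ)) p = ∑ k ∈ s, c k * gspChi k p := by
      simp [ContinuousMap.sum_apply]
    rw [h2, mul_right_comm, gspChi_mul_normSq, Finset.sum_mul]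
    refine Finset.sum_congr rfl fun k _ => ?_
    rw [Finset.sum_mul]
    refine Finset.sum_congr rfl fun l _ => ?_
    ring
  simp_rw [h1]
  rw [integral_finsetSum]
  · refine Finset.sum_congr rfl fun k _ => ?_
    rw [integral_finsetSum]
    · exact Finset.sum_congr rfl fun l _ => (integral_const_mul _ _).symm
    · exact fun l _ => (gsp_integrable μ (gspMon (n + l - k, j))).const_mul _
  · exact fun k _ => integrable_finsetSum _ fun l _ => (gsp_integrable μ (gspMon (n + l - k, j))).const_mul _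

/-- expansion of `e_n |Σ c_k e_k|²` on the torus -/
theorem gsp_mFourier_mul_normSq (s : Finset (ι → ℤ)) (c : (ι → ℤ) → ℂ) (n : ι → ℤ) (x : UnitAddTorus ι) :
    UnitAddTorus.mFourier n x * (conj (∑ k ∈ s, c k * UnitAddTorus.mFourier k x) * ∑ k ∈ s, c k * UnitAddTorus.mFourier k x)
      = ∑ k ∈ s, ∑ l ∈ s, conj (c k) * c l * UnitAddTorus.mFourier (n + l - k) x :=
  gspChi_mul_normSq s c n (x, 0)

/-- **the covariance rule on the torus** (moment form): if the Fourier coefficients of `ν` are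
`Σ_k Σ_l conj (c k) c l φ(n + l - k)`, `φ` the Fourier coefficients of `μ`, then `ν = |Σ c_k e_k|² μ` -/
theorem gsp_cov_rule_torus {μ ν : Measure (UnitAddTorus ι)} [IsFiniteMeasure μ] [IsFiniteMeasure ν]
    (s : Finset (ι → ℤ)) (c : (ι → ℤ) → ℂ)
    (h : ∀ n : ι → ℤ, ∫ x, UnitAddTorus.mFourier n x ∂ν
      = ∑ k ∈ s, ∑ l ∈ s, conj (c k) * c l * ∫ x, UnitAddTorus.mFourier (n + l - k) x ∂μ) :
    ν = μ.withDensity (gspDens (∑ k ∈ s, c k • UnitAddTorus.mFourier k)) := by
  have := gsp_withDensity_finite μ (∑ k ∈ s, c k • UnitAddTorus.mFourier k)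
  refine gsp_torus_unique fun n => ?_
  rw [h, gsp_withDensity_integral]
  have h1 : ∀ x, UnitAddTorus.mFourier n x * (conj ((∑ k ∈ s, c k • UnitAddTorus.mFourier k : C(UnitAddTorus ι, ℂ)) x)
      * (∑ k ∈ s, c k • UnitAddTorus.mFourier k : C(UnitAddTorus ι, ℂ)) x)
      = ∑ k ∈ s, ∑ l ∈ s, conj (c k) * c l * UnitAddTorus.mFourier (n + l - k) x := by
    intro x
    have h2 : (∑ k ∈ s, c k • UnitAddTorus.mFourier k : C(UnitAddTorus ι, ℂ)) x
        = ∑ k ∈ s, c k * UnitAddTorus.mFourier k x := by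
      simp [ContinuousMap.sum_apply]
    rw [h2, gsp_mFourier_mul_normSq]
  simp_rw [h1]
  rw [integral_finsetSum]
  · refine Finset.sum_congr rfl fun k _ => ?_
    rw [integral_finsetSum]
    · exact Finset.sum_congr rfl fun l _ => (integral_const_mul _ _).symm
    · exact fun l _ => (gsp_integrable μ (UnitAddTorus.mFourier (n + l - k))).const_mul _
  · exact fun k _ => integrable_finsetSum _ fun l _ => (gsp_integrable μ (UnitAddTorus.mFourier (n + l - k))).const_mul _

/-- the atom at a point is dominated: `|P(x₀)|² μ{x₀} ≤ ∫ |P|² dμ` -/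
theorem gsp_atom_le {Y : Type*} [TopologicalSpace Y] [CompactSpace Y] [MeasurableSpace Y] [BorelSpace Y] [T1Space Y]
    (μ : Measure Y) [IsFiniteMeasure μ] (P : C(Y, ℂ)) (y₀ : Y) : ‖P y₀‖ ^ 2 * μ.real {y₀} ≤ ∫ y, ‖P y‖ ^ 2 ∂μ := by
  have hint : Integrable (fun y => ‖P y‖ ^ 2) μ :=
    (by fun_prop : Continuous fun y => ‖P y‖ ^ 2).integrable_of_hasCompactSupport (HasCompactSupport.of_compactSpace _)
  calc ‖P y₀‖ ^ 2 * μ.real {y₀} = ∫ y in {y₀}, ‖P y‖ ^ 2 ∂μ := by
        rw [Measure.restrict_singleton, integral_smul_measure, integral_dirac, smul_eq_mul, mul_comm]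
        rfl
    _ ≤ ∫ y, ‖P y‖ ^ 2 ∂μ := setIntegral_le_integral hint (Eventually.of_forall fun y => by positivity)

end covariance

/-! ## 4. existence on the torus (Lemma 8.1), form version -/

section torus

variable {ι : Type*} [Fintype ι]

/-- the torus marginal -/
theorem gsp_fst_moment (μ : Measure (UnitAddTorus ι × unitInterval)) (n : ι → ℤ) :
    ∫ x, UnitAddTorus.mFourier n x ∂(μ.map Prod.fst) = ∫ p, gspChi n p * gspLam ι p ^ 0 ∂μ := by
  rw [integral_map measurable_fst.aemeasurable (UnitAddTorus.mFourier n).continuous.aestronglyMeasurable]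
  simp [gspChi]

/-- **Lemma 8.1, form version**: the scalar spectral measure of a representation of `ℤ^ι` by isometries of a form -/
theorem gsp_core_torus {E : Type*} [AddCommGroup E] [Module ℂ E] (c : PreInnerProductSpace.Core ℂ E)
    (U : (ι → ℤ) → Module.End ℂ E) (hU0 : U 0 = 1)
    (hUadd : ∀ m n, U (m + n) = U m * U n) (hUiso : ∀ n x y, c.inner (U n x) (U n y) = c.inner x y) (x : E) :
    ∃ μ : Measure (UnitAddTorus ι), IsFiniteMeasure μ ∧
      ∀ n : ι → ℤ, ∫ y, UnitAddTorus.mFourier n y ∂μ = c.inner x (U n x) := by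
  obtain ⟨μ, hfin, -, hμ⟩ := sp8_core c U hU0 hUadd hUiso 1 Sp8Sym.one Sp8Pos.one
    (fun x => ⟨(c.inner x x).re, fun n => by simp⟩) (fun n => by rw [mul_one, one_mul]) x
  refine ⟨μ.map Prod.fst, Measure.isFiniteMeasure_map μ _, fun n => ?_⟩
  rw [gsp_fst_moment, hμ]
  simp

end torus

/-! ## 5. transport to the box `(-π, π]^ι` -/

section box

variable {ι : Type*}

/-- the representative in `(-π, π]` of a point of the unit circle `ℝ / ℤ` -/
noncomputable def gspArg (x : UnitAddCircle) : ℝ := 2 * Real.pi * (AddCircle.equivIoc (1 : ℝ) (-1 / 2) x : ℝ)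

theorem gspArg_mem (x : UnitAddCircle) : gspArg x ∈ Ioc (-Real.pi) Real.pi := by
  have h := (AddCircle.equivIoc (1 : ℝ) (-1 / 2) x).2
  have hpi := Real.pi_pos
  constructor
  · have := h.1
    unfold gspArg
    nlinarith
  · have := h.2
    unfold gspArg
    nlinarith

theorem gspArg_measurable : Measurable gspArg :=
  (measurable_subtype_coe.comp (AddCircle.measurableEquivIoc (1 : ℝ) (-1 / 2)).measurable).const_mul _

/-- the point of the circle with a given angle -/
noncomputable def gspPt (t : ℝ) : UnitAddCircle := ((t / (2 * Real.pi) : ℝ) : UnitAddCircle)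

theorem gspPt_continuous : Continuous gspPt :=
  (AddCircle.continuous_mk' (1 : ℝ)).comp (continuous_id.div_const _)

theorem gspPt_arg (x : UnitAddCircle) : gspPt (gspArg x) = x := by
  have hpi := Real.pi_pos
  unfold gspPt gspArg
  rw [mul_div_cancel_left₀ _ (by positivity)]
  exact AddCircle.coe_equivIoc

theorem gspArg_pt {t : ℝ} (ht : t ∈ Ioc (-Real.pi) Real.pi) : gspArg (gspPt t) = t := by
  have hpi := Real.pi_pos
  have h1 : t / (2 * Real.pi) ∈ Ioc (-1 / 2 : ℝ) (-1 / 2 + 1) := by
    constructor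
    · rw [lt_div_iff₀ (by positivity)]
      linarith [ht.1]
    · rw [div_le_iff₀ (by positivity)]
      linarith [ht.2]
  unfold gspPt gspArg
  rw [AddCircle.equivIoc_coe_of_mem h1]
  field_simp

theorem gspArg_zero : gspArg 0 = 0 := by
  have h := gspArg_pt (t := 0) ⟨by linarith [Real.pi_pos], Real.pi_pos.le⟩
  have h2 : gspPt 0 = 0 := by simp [gspPt]
  rwa [h2] at h

theorem gspArg_eq_zero_iff {x : UnitAddCircle} : gspArg x = 0 ↔ x = 0 := by
  constructor
  · intro h
    have := gspPt_arg x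
    rw [h] at this
    rw [← this]
    simp [gspPt]
  · rintro rfl
    exact gspArg_zero

theorem gsp_fourier_pt (n : ℤ) (t : ℝ) : fourier n (gspPt t) = Complex.exp (Complex.I * (n * t)) := by
  have hpi : (Real.pi : ℂ) ≠ 0 := Complex.ofReal_ne_zero.2 Real.pi_ne_zero
  unfold gspPt
  rw [fourier_coe_apply]
  congr 1
  push_cast
  field_simp

theorem gsp_fourier_arg (n : ℤ) (x : UnitAddCircle) : fourier n x = Complex.exp (Complex.I * (n * gspArg x)) := by
  conv_lhs => rw [← gspPt_arg x]
  exact gsp_fourier_pt n _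

/-- the representative in the box -/
noncomputable def gspBox (x : UnitAddTorus ι) : ι → ℝ := fun r => gspArg (x r)

/-- the point of the torus with given angles -/
noncomputable def gspUnbox (p : ι → ℝ) : UnitAddTorus ι := fun r => gspPt (p r)

theorem gspBox_mem (x : UnitAddTorus ι) (r : ι) : gspBox x r ∈ Ioc (-Real.pi) Real.pi := gspArg_mem _

theorem gspBox_measurable : Measurable (gspBox (ι := ι)) :=
  measurable_pi_lambda _ fun r => gspArg_measurable.comp (measurable_pi_apply r)

theorem gspUnbox_continuous : Continuous (gspUnbox (ι := ι)) :=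
  continuous_pi fun r => gspPt_continuous.comp (continuous_apply r)

theorem gspUnbox_box (x : UnitAddTorus ι) : gspUnbox (gspBox x) = x := funext fun r => gspPt_arg (x r)

theorem gspBox_unbox {p : ι → ℝ} (hp : ∀ r, p r ∈ Ioc (-Real.pi) Real.pi) : gspBox (gspUnbox p) = p :=
  funext fun r => gspArg_pt (hp r)

theorem gspBox_eq_zero_iff {x : UnitAddTorus ι} : gspBox x = 0 ↔ x = 0 := by
  simp only [funext_iff, gspBox, Pi.zero_apply, gspArg_eq_zero_iff]

theorem gsp_mFourier_unbox [Fintype ι] (n : ι → ℤ) (p : ι → ℝ) :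
    UnitAddTorus.mFourier n (gspUnbox p) = Complex.exp (Complex.I * ∑ r, (n r * p r : ℂ)) := by
  show ∏ r, fourier (n r) (gspPt (p r)) = _
  rw [Finset.mul_sum, Complex.exp_sum]
  exact Finset.prod_congr rfl fun r _ => gsp_fourier_pt _ _

theorem gsp_mFourier_box [Fintype ι] (n : ι → ℤ) (x : UnitAddTorus ι) :
    UnitAddTorus.mFourier n x = Complex.exp (Complex.I * ∑ r, (n r * gspBox x r : ℂ)) := by
  conv_lhs => rw [← gspUnbox_box x]
  exact gsp_mFourier_unbox n _

/-- the measure in the box: support -/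
theorem gsp_box_support [Countable ι] (μ : Measure (UnitAddTorus ι)) :
    ∀ᵐ p ∂(μ.map gspBox), ∀ r, p r ∈ Ioc (-Real.pi) Real.pi := by
  rw [ae_map_iff gspBox_measurable.aemeasurable]
  · exact Eventually.of_forall fun x r => gspBox_mem x r
  · have : {p : ι → ℝ | ∀ r, p r ∈ Ioc (-Real.pi) Real.pi} = ⋂ r, (fun p : ι → ℝ => p r) ⁻¹' Ioc (-Real.pi) Real.pi := by
      ext p; simp
    rw [this]
    exact MeasurableSet.iInter fun r => (measurable_pi_apply r) measurableSet_Ioc

/-- the measure in the box: Fourier coefficients -/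
theorem gsp_box_moment [Fintype ι] (μ : Measure (UnitAddTorus ι)) (n : ι → ℤ) :
    ∫ p, Complex.exp (Complex.I * ∑ r, (n r * p r : ℂ)) ∂(μ.map gspBox) = ∫ x, UnitAddTorus.mFourier n x ∂μ := by
  rw [integral_map gspBox_measurable.aemeasurable]
  · exact integral_congr_ae (Eventually.of_forall fun x => (gsp_mFourier_box n x).symm)
  · exact (by fun_prop : Continuous fun p : ι → ℝ => Complex.exp (Complex.I * ∑ r, (n r * p r : ℂ))).aestronglyMeasurable

/-- going back to the torus -/
theorem gsp_box_map_unbox [Countable ι] (μ : Measure (UnitAddTorus ι)) : (μ.map gspBox).map gspUnbox = μ := by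
  rw [Measure.map_map gspUnbox_continuous.measurable gspBox_measurable]
  have : gspUnbox ∘ gspBox = (id : UnitAddTorus ι → UnitAddTorus ι) := funext gspUnbox_box
  rw [this, Measure.map_id]

/-- **uniqueness in the box**: finite measures carried by `(-π, π]^ι` with the same Fourier coefficients are equal -/
theorem gsp_box_unique [Fintype ι] {μ ν : Measure (ι → ℝ)} [IsFiniteMeasure μ] [IsFiniteMeasure ν]
    (hμ : ∀ᵐ p ∂μ, ∀ r, p r ∈ Ioc (-Real.pi) Real.pi) (hν : ∀ᵐ p ∂ν, ∀ r, p r ∈ Ioc (-Real.pi) Real.pi)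
    (h : ∀ n : ι → ℤ, ∫ p, Complex.exp (Complex.I * ∑ r, (n r * p r : ℂ)) ∂μ
      = ∫ p, Complex.exp (Complex.I * ∑ r, (n r * p r : ℂ)) ∂ν) : μ = ν := by
  have hm : Measurable (gspUnbox (ι := ι)) := gspUnbox_continuous.measurable
  have h1 : μ.map gspUnbox = ν.map gspUnbox := by
    refine gsp_torus_unique fun n => ?_
    rw [integral_map hm.aemeasurable (UnitAddTorus.mFourier n).continuous.aestronglyMeasurable,
      integral_map hm.aemeasurable (UnitAddTorus.mFourier n).continuous.aestronglyMeasurable]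
    simp_rw [gsp_mFourier_unbox]
    exact h n
  have h2 : ∀ κ : Measure (ι → ℝ), (∀ᵐ p ∂κ, ∀ r, p r ∈ Ioc (-Real.pi) Real.pi) → (κ.map gspUnbox).map gspBox = κ := by
    intro κ hκ
    rw [Measure.map_map gspBox_measurable hm]
    have : (gspBox ∘ gspUnbox : (ι → ℝ) → ι → ℝ) =ᵐ[κ] id := hκ.mono fun p hp => gspBox_unbox hp
    rw [Measure.map_congr this, Measure.map_id]
  rw [← h2 μ hμ, ← h2 ν hν, h1]

end box

end Claimed.Agent.R291
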